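import Vale.Agent.P150.Crit.Moments

/-!
The self-avoiding path statistic against the two point functions: at the critical temperature `n`
times the mean squared overlap tends to infinity in probability.
-/

namespace Vale.Agent.P150.Crit

open Finset MeasureTheory ProbabilityTheory Real Filter
open Vale.Agent.P150 Vale.Agent.P150.Slow Vale.Agent.P146
open scoped Topology

variable {n m p K : ℕ}

/-- A path is determined by its first two sites and its edge set. -/
lemma path_eq {j j' : Fin (m + 3) → Fin n} (hj : Function.Injective j)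
    (hj' : Function.Injective j') (h0 : j 0 = j' 0) (h1 : j 1 = j' 1)
    (hS : pathSet j = pathSet j') : j = j' := by
  have hE : edgeSet j = edgeSet j' := by
    have e : ∀ i : Fin (m + 3) → Fin n, edgeSet i = insert (ed i 0) (pathSet i) := fun i => by
      rw [edgeSet, pathSet, ← image_insert, insert_erase (mem_univ _)]
    rw [e, e, hS, show ed j 0 = ed j' 0 by simp [ed, h0, h1]]
  have key : ∀ t : ℕ, t + 1 < m + 3 → ∀ (s : Fin (m + 3)), s.val = t →
      j s = j' s ∧ j (s + 1) = j' (s + 1) := by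
    intro t
    induction t with
    | zero =>
      intro _ s hs
      obtain rfl : s = 0 := Fin.ext (by simpa using hs)
      simpa using ⟨h0, h1⟩
    | succ t ih =>
      intro ht s hs
      obtain ⟨r, hr, rfl⟩ : ∃ r : Fin (m + 3), r.val = t ∧ s = r + 1 := by
        refine ⟨⟨t, by omega⟩, rfl, Fin.ext ?_⟩
        simp [Fin.val_add, hs, Nat.mod_eq_of_lt (show t + 1 < m + 3 by omega)]
      obtain ⟨e1, e2⟩ := ih (by omega) r hr
      refine ⟨e2, ?_⟩
      have hb : mk' (j (r + 1)) (j r) ∈ edgeSet j := by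
        rw [show mk' (j (r + 1)) (j r) = ed j r from mk'_eq_iff.mpr (Or.inr ⟨rfl, rfl⟩)]
        exact mem_image_of_mem _ (mem_univ r)
      have hf : mk' (j (r + 1)) (j' (r + 1 + 1)) ∈ edgeSet j := by
        rw [hE, e2]; exact mem_image_of_mem _ (mem_univ (r + 1))
      have n2 : j' (r + 1 + 1) ≠ j r := by
        rw [e1]; exact fun h => add_two_ne r (hj' h)
      rcases edge_nb hj hb with a | a <;> rcases edge_nb hj hf with b | b <;> simp_all
  funext s
  rcases Nat.eq_zero_or_pos s.val with h | h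
  · rw [show s = 0 from Fin.ext (by simpa using h)]; exact h0
  · have hs := s.2
    have := (key (s.val - 1) (by omega) ⟨s.val - 1, by omega⟩ rfl).2
    have e : (⟨s.val - 1, by omega⟩ : Fin (m + 3)) + 1 = s := Fin.ext (by
      simp [Fin.val_add, Nat.sub_add_cancel h, Nat.mod_eq_of_lt hs])
    rwa [e] at this

/-- The first two sites of a path. -/
def start (i : Fin (m + 3) → Fin n) : Fin n × Fin n := (i 0, i 1)

/-- The monomials of the paths with given first two sites. -/
noncomputable def amp (n m : ℕ) (v : Fin n × Fin n) (g : Fin n × Fin n → ℝ) : ℝ :=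
  ∑ i ∈ (cyc n m).filter (fun i => start i = v), psi i (univ.erase 0) g

lemma psi_path (i : Fin (m + 3) → Fin n) : psi i (univ.erase 0) = mon (pathSet i) := rfl

lemma amp_mul (v : Fin n × Fin n) (g : Fin n × Fin n → ℝ) :
    amp n m v g * amp n p v g = ∑ i ∈ (cyc n m).filter (fun i => start i = v),
      ∑ j ∈ (cyc n p).filter (fun j => start j = v), mon (pathSet i) g * mon (pathSet j) g := by
  simp only [amp, psi_path, sum_mul_sum]

lemma integrable_amp_mul (v : Fin n × Fin n) :
    Integrable (fun g => amp n m v g * amp n p v g) (stdPi (Fin n × Fin n)) :=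
  (integrable_finsetSum _ fun i _ => integrable_finsetSum _ fun j _ =>
    integrable_mon_mul (pathSet i) (pathSet j)).congr
      (ae_of_all _ fun g => (amp_mul v g).symm)

lemma integral_amp_mul (v : Fin n × Fin n) :
    ∫ g, amp n m v g * amp n p v g ∂stdPi (Fin n × Fin n) =
      if m = p then (((cyc n m).filter fun i => start i = v).card : ℝ) else 0 := by
  classical
  simp only [amp_mul]
  rw [integral_finsetSum _ fun i _ => integrable_finsetSum _ fun j _ => integrable_mon_mul _ _,
    sum_congr rfl fun i _ => integral_finsetSum _ fun j _ => integrable_mon_mul _ _]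
  simp only [integral_mon_mul]
  by_cases hmp : m = p
  · subst hmp
    rw [if_pos rfl]
    have e : ∀ i ∈ (cyc n m).filter (fun i => start i = v),
        ∑ j ∈ (cyc n m).filter (fun j => start j = v),
          (if pathSet i = pathSet j then (1 : ℝ) else 0) = 1 := by
      intro i hi
      rw [sum_eq_single i]
      · simp
      · intro j hj hne
        simp only [mem_filter, mem_cyc] at hi hj
        refine if_neg fun h => hne ?_
        have hv : start i = start j := hi.2.trans hj.2.symm
        simp only [start, Prod.mk.injEq] at hv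
        exact (path_eq hi.1 hj.1 hv.1 hv.2 h).symm
      · exact fun h => absurd hi h
    rw [sum_congr rfl e]
    simp
  · rw [if_neg hmp]
    refine sum_eq_zero fun i hi => sum_eq_zero fun j hj => if_neg fun h => hmp ?_
    have h' := congrArg Finset.card h
    rw [card_pathSet (mem_cyc.mp (mem_filter.mp hi).1),
      card_pathSet (mem_cyc.mp (mem_filter.mp hj).1)] at h'
    omega

/-- The path matrix. -/
noncomputable def amat (n K : ℕ) (v : Fin n × Fin n) (g : Fin n × Fin n → ℝ) : ℝ :=
  ∑ m ∈ range K, wgt n m * amp n m v g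

/-- The statistic of all paths up to a length. -/
noncomputable def Dtot (n K : ℕ) (g : Fin n × Fin n → ℝ) : ℝ := ∑ m ∈ range K, Dm n m g

/-- The squared size of the path matrix. -/
noncomputable def Wtot (n K : ℕ) (g : Fin n × Fin n → ℝ) : ℝ := n * ∑ v, amat n K v g ^ 2

lemma Wtot_nonneg (g : Fin n × Fin n → ℝ) : 0 ≤ Wtot n K g :=
  mul_nonneg (Nat.cast_nonneg n) (sum_nonneg fun _ _ => sq_nonneg _)

lemma Dm_eq (g : Fin n × Fin n → ℝ) :
    Dm n m g = ∑ v, wgt n m * amp n m v g * mu 1 g (X (mk' v.1 v.2)) := by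
  simp only [Dm, amp]
  rw [← sum_fiberwise (cyc n m) start (fun i => pth i g), mul_sum]
  refine sum_congr rfl fun v _ => ?_
  rw [mul_assoc, sum_mul]
  congr 1
  refine sum_congr rfl fun i hi => ?_
  have hv : start i = v := (mem_filter.mp hi).2
  subst hv
  simp [pth, start, ed]

lemma Dtot_eq (g : Fin n × Fin n → ℝ) :
    Dtot n K g = ∑ v, amat n K v g * mu 1 g (X (mk' v.1 v.2)) := by
  simp only [Dtot, Dm_eq, amat, sum_mul]
  exact sum_comm

lemma sum_mu_sq (β : ℝ) (hn : 0 < n) (g : Fin n × Fin n → ℝ) :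
    ∑ v : Fin n × Fin n, mu β g (X (mk' v.1 v.2)) ^ 2 = (n : ℝ) ^ 2 * Slow.q β g := by
  have hn' : (n : ℝ) ≠ 0 := by exact_mod_cast hn.ne'
  have hq : Slow.q β g = ∑ x, ∑ y, P β g x * P β g y * ov x y := rfl
  rw [hq, mul_sum]
  have h : ∀ v : Fin n × Fin n, mu β g (X (mk' v.1 v.2)) ^ 2 = ∑ x, ∑ y, P β g x * P β g y *
      ((spin (x v.1) * spin (y v.1)) * (spin (x v.2) * spin (y v.2))) := fun v => by
    rw [sq, mu_eq, sum_mul_sum]
    exact sum_congr rfl fun x _ => sum_congr rfl fun y _ => by rw [X_mk', X_mk']; ring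
  simp only [h]
  rw [sum_comm]
  refine sum_congr rfl fun x _ => ?_
  rw [sum_comm, mul_sum]
  refine sum_congr rfl fun y _ => ?_
  rw [← mul_sum]
  have e : ∑ v : Fin n × Fin n, (spin (x v.1) * spin (y v.1)) * (spin (x v.2) * spin (y v.2)) =
      (∑ i, spin (x i) * spin (y i)) ^ 2 := by
    rw [sq, sum_mul_sum, Fintype.sum_prod_type]
  rw [e, ov]
  field_simp

/-- Cauchy–Schwarz between the path matrix and the two point functions. -/
lemma Dtot_sq_le (hn : 0 < n) (g : Fin n × Fin n → ℝ) :
    Dtot n K g ^ 2 ≤ Wtot n K g * (n * Slow.q 1 g) := by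
  rw [Dtot_eq]
  refine (sum_mul_sq_le_sq_mul_sq univ _ _).trans (le_of_eq ?_)
  rw [sum_mu_sq 1 hn, Wtot]
  ring

lemma Wtot_eq (g : Fin n × Fin n → ℝ) :
    Wtot n K g = ∑ v, ∑ m ∈ range K, ∑ p ∈ range K,
      (n * (wgt n m * wgt n p)) * (amp n m v g * amp n p v g) := by
  simp only [Wtot, amat, sq]
  rw [mul_sum]
  refine sum_congr rfl fun v _ => ?_
  rw [sum_mul_sum, mul_sum]
  refine sum_congr rfl fun m _ => ?_
  rw [mul_sum]
  exact sum_congr rfl fun p _ => by ring

lemma integrable_Wtot : Integrable (Wtot n K) (stdPi (Fin n × Fin n)) :=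
  (integrable_finsetSum _ fun v _ => integrable_finsetSum _ fun _ _ =>
    integrable_finsetSum _ fun _ _ => (integrable_amp_mul v).const_mul _).congr
      (ae_of_all _ fun g => (Wtot_eq g).symm)

lemma integral_Wtot (hn : 0 < n) : ∫ g, Wtot n K g ∂stdPi (Fin n × Fin n) ≤ K := by
  have hn' : (0 : ℝ) < n := by exact_mod_cast hn
  simp only [Wtot_eq]
  rw [integral_finsetSum _ fun v _ => integrable_finsetSum _ fun _ _ =>
    integrable_finsetSum _ fun _ _ => (integrable_amp_mul v).const_mul _]
  have e : ∀ v : Fin n × Fin n, ∫ g, ∑ m ∈ range K, ∑ p ∈ range K,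
      (n * (wgt n m * wgt n p)) * (amp n m v g * amp n p v g) ∂stdPi (Fin n × Fin n) =
      ∑ m ∈ range K, n * (wgt n m * wgt n m) *
        (((cyc n m).filter fun i => start i = v).card : ℝ) := by
    intro v
    rw [integral_finsetSum _ fun _ _ =>
      integrable_finsetSum _ fun _ _ => (integrable_amp_mul v).const_mul _]
    refine sum_congr rfl fun m hm => ?_
    rw [integral_finsetSum _ fun _ _ => (integrable_amp_mul v).const_mul _]
    simp only [integral_const_mul, integral_amp_mul, mul_ite, mul_zero, sum_ite_eq, if_pos hm]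
  simp only [e]
  rw [sum_comm]
  refine (sum_le_sum (g := fun _ => (1 : ℝ)) fun m _ => ?_).trans (le_of_eq (by simp))
  rw [← mul_sum, ← Nat.cast_sum, ← card_eq_sum_card_fiberwise fun _ _ => mem_univ _, card_cyc]
  refine (mul_le_mul_of_nonneg_left (Nat.cast_le.mpr (Nat.descFactorial_le_pow n (m + 3)))
    (by unfold wgt; positivity)).trans (le_of_eq ?_)
  rw [wgt, ← sq, ← pow_mul, mul_comm (m + 4) 2, pow_mul, div_pow, one_pow, Real.sq_sqrt hn'.le,
    Nat.cast_pow, one_div, inv_pow, mul_comm (n : ℝ) _, mul_assoc, ← pow_succ']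
  exact inv_mul_cancel₀ (pow_ne_zero _ hn'.ne')

lemma integrable_Dm : Integrable (Dm n m) (stdPi (Fin n × Fin n)) :=
  (integrable_finsetSum _ fun i _ => integrable_pth i).const_mul _

lemma integrable_Dm_mul : Integrable (fun g => Dm n m g * Dm n p g) (stdPi (Fin n × Fin n)) :=
  ((integrable_finsetSum (cyc n m) fun i _ => integrable_finsetSum (cyc n p) fun j _ =>
    integrable_pth_mul i j).const_mul (wgt n m * wgt n p)).congr (ae_of_all _ fun g => by
      simp only [Dm]; rw [mul_mul_mul_comm, sum_mul_sum])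

lemma dev_eq (g : Fin n × Fin n → ℝ) : (Dtot n K g - K) ^ 2 =
    (∑ m ∈ range K, ∑ p ∈ range K, Dm n m g * Dm n p g) - 2 * K * (∑ m ∈ range K, Dm n m g) +
      (K : ℝ) ^ 2 := by
  rw [← sum_mul_sum, Dtot]; ring

lemma integrable_dev : Integrable (fun g => (Dtot n K g - K) ^ 2) (stdPi (Fin n × Fin n)) :=
  ((((integrable_finsetSum (range K) fun _ _ => integrable_finsetSum (range K) fun _ _ =>
    integrable_Dm_mul).sub ((integrable_finsetSum (range K) fun _ _ => integrable_Dm).const_mul
      (2 * (K : ℝ)))).add (integrable_const ((K : ℝ) ^ 2)))).congr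
      (ae_of_all _ fun g => (dev_eq g).symm)

/-- The statistic concentrates at its mean. -/
lemma integral_dev (K : ℕ) {ε : ℝ}
    (a : ∀ m ∈ range K, |∫ g, Dm n m g ∂stdPi (Fin n × Fin n) - 1| ≤ ε)
    (b : ∀ m ∈ range K, ∀ p ∈ range K,
      ∫ g, Dm n m g * Dm n p g ∂stdPi (Fin n × Fin n) ≤ 1 + ε) :
    ∫ g, (Dtot n K g - K) ^ 2 ∂stdPi (Fin n × Fin n) ≤ 3 * ε * (K : ℝ) ^ 2 := by
  simp only [dev_eq]
  have i2 : Integrable (fun g => ∑ m ∈ range K, ∑ p ∈ range K, Dm n m g * Dm n p g)
      (stdPi (Fin n × Fin n)) :=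
    integrable_finsetSum _ fun _ _ => integrable_finsetSum _ fun _ _ => integrable_Dm_mul
  have i1 : Integrable (fun g => 2 * (K : ℝ) * ∑ m ∈ range K, Dm n m g)
      (stdPi (Fin n × Fin n)) :=
    (integrable_finsetSum _ fun _ _ => integrable_Dm).const_mul _
  have i3 : Integrable (fun g => (∑ m ∈ range K, ∑ p ∈ range K, Dm n m g * Dm n p g) -
      2 * (K : ℝ) * ∑ m ∈ range K, Dm n m g) (stdPi (Fin n × Fin n)) := i2.sub i1
  rw [integral_add i3 (integrable_const _), integral_sub i2 i1, integral_const,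
    integral_finsetSum _ fun _ _ => integrable_finsetSum _ fun _ _ => integrable_Dm_mul,
    integral_const_mul, integral_finsetSum _ fun _ _ => integrable_Dm,
    sum_congr rfl fun _ _ => integral_finsetSum _ fun _ _ => integrable_Dm_mul]
  have u2 : ∑ m ∈ range K, ∑ p ∈ range K, ∫ g, Dm n m g * Dm n p g ∂stdPi (Fin n × Fin n) ≤
      K * (K * (1 + ε)) :=
    (sum_le_sum (g := fun _ => (K : ℝ) * (1 + ε)) fun m hm =>
      (sum_le_sum fun p hp => b m hm p hp).trans (le_of_eq (by simp; ring))).trans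
      (le_of_eq (by simp))
  have u1 : (K : ℝ) * (1 - ε) ≤ ∑ m ∈ range K, ∫ g, Dm n m g ∂stdPi (Fin n × Fin n) :=
    (le_of_eq (by simp; ring)).trans
      (sum_le_sum (f := fun _ => 1 - ε) fun m hm => by linarith [(abs_le.mp (a m hm)).1])
  simp only [probReal_univ, one_smul]
  nlinarith [mul_le_mul_of_nonneg_left u1 (by positivity : (0 : ℝ) ≤ 2 * K)]

/-- Where `n` times the overlap is below `L`, the statistic is off its mean or the path matrix is
large. -/
lemma bad_le {L : ℝ} (hK : 0 < K) (hn : 0 < n) (g : Fin n × Fin n → ℝ)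
    (hq : (n : ℝ) * Slow.q 1 g < L) :
    1 ≤ 4 * (Dtot n K g - K) ^ 2 / (K : ℝ) ^ 2 + 4 * L * Wtot n K g / (K : ℝ) ^ 2 := by
  have hK' : (0 : ℝ) < K := by exact_mod_cast hK
  have h2 := (Dtot_sq_le (K := K) hn g).trans
    (mul_le_mul_of_nonneg_left hq.le (Wtot_nonneg g))
  rw [← add_div, le_div_iff₀ (by positivity), one_mul]
  nlinarith [sq_nonneg (Dtot n K g - K / 2)]

/-- A bound on the probability that `n` times the mean squared overlap is below `L`. -/
theorem overlap_bound (hn : 0 < n) (hK : 0 < K) {L ε : ℝ} (hL : 0 ≤ L) (hε : 0 ≤ ε)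
    (a : ∀ m ∈ range K, |∫ g, Dm n m g ∂stdPi (Fin n × Fin n) - 1| ≤ ε)
    (b : ∀ m ∈ range K, ∀ p ∈ range K,
      ∫ g, Dm n m g * Dm n p g ∂stdPi (Fin n × Fin n) ≤ 1 + ε) :
    stdPi (Fin n × Fin n) {g | (n : ℝ) * Slow.q 1 g < L} ≤
      ENNReal.ofReal (12 * ε + 4 * L / K) := by
  have hK' : (0 : ℝ) < K := by exact_mod_cast hK
  have hdev := integral_dev K a b
  set f : (Fin n × Fin n → ℝ) → ℝ := fun g =>
    4 * (Dtot n K g - K) ^ 2 / (K : ℝ) ^ 2 + 4 * L * Wtot n K g / (K : ℝ) ^ 2
  have i1 : Integrable (fun g => 4 * (Dtot n K g - K) ^ 2 / (K : ℝ) ^ 2)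
      (stdPi (Fin n × Fin n)) := (integrable_dev.const_mul _).div_const _
  have i2 : Integrable (fun g => 4 * L * Wtot n K g / (K : ℝ) ^ 2)
      (stdPi (Fin n × Fin n)) := (integrable_Wtot.const_mul _).div_const _
  have hf : ∀ g, 0 ≤ f g := fun g => by
    have := Wtot_nonneg (K := K) g
    positivity
  have hint : ∫ g, f g ∂stdPi (Fin n × Fin n) ≤ 12 * ε + 4 * L / K := by
    simp only [f]
    rw [integral_add i1 i2, integral_div, integral_const_mul, integral_div, integral_const_mul]
    refine (add_le_add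
      (div_le_div_of_nonneg_right (mul_le_mul_of_nonneg_left hdev (by norm_num)) (by positivity))
      (div_le_div_of_nonneg_right (mul_le_mul_of_nonneg_left (integral_Wtot hn) (by positivity))
        (by positivity))).trans (le_of_eq ?_)
    field_simp
    ring
  have hm := (mul_meas_ge_le_integral_of_nonneg (ae_of_all _ hf) (i1.add i2) 1).trans hint
  rw [one_mul] at hm
  exact (measure_mono fun g hg => bad_le hK hn g hg).trans
    ((ENNReal.le_ofReal_iff_toReal_le (measure_ne_top _ _) (by positivity)).mpr hm)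

end Vale.Agent.P150.Crit
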