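import Vale.Agent.P150.Crit.States

/-!
First and second moments of the self-avoiding path statistic at the critical temperature.
-/

namespace Vale.Agent.P150.Crit

open Finset MeasureTheory ProbabilityTheory Real Filter
open Vale.Agent.P150 Vale.Agent.P150.Slow Vale.Agent.P146
open scoped Topology

variable {n m p : ℕ}

/-- The monomial of a path times the two point function of its endpoints. -/
noncomputable def pth (i : Fin (m + 3) → Fin n) (g : Fin n × Fin n → ℝ) : ℝ :=
  psi i (univ.erase 0) g * mu 1 g (X (ed i 0))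

/-- The normalisation of the paths of a given length. -/
noncomputable def wgt (n m : ℕ) : ℝ := (1 / √(n : ℝ)) ^ (m + 4)

/-- The statistic of the paths of a given length. -/
noncomputable def Dm (n m : ℕ) (g : Fin n × Fin n → ℝ) : ℝ :=
  wgt n m * ∑ i ∈ cyc n m, pth i g

lemma wgt_mul_pow (n m : ℕ) :
    wgt n m * ((1 : ℝ) / √(n : ℝ)) ^ (m + 2) = ((n : ℝ) ^ (m + 3))⁻¹ := by
  rw [wgt, ← pow_add, show m + 4 + (m + 2) = 2 * (m + 3) by ring, pow_mul, div_pow, one_pow,
    Real.sq_sqrt (Nat.cast_nonneg n), one_div, inv_pow]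

lemma integrable_pth (i : Fin (m + 3) → Fin n) :
    Integrable (pth i) (stdPi (Fin n × Fin n)) := by
  refine (integrable_mul_pr (integrable_mon ((univ.erase 0).image (ed i))) 1
    (F := fun _ => X (ed i 0)) (fun _ x => abs_X _ x) 1).congr (ae_of_all _ fun g => ?_)
  simp [pth, pr, psi]

lemma noShort_addRight (m : ℕ) : NoShort (Equiv.addRight (1 : Fin (m + 3))) :=
  fun l => ⟨by simp, by simp [add_two_ne]⟩

lemma const_orbit {k : ℕ} (f : Fin (k + 3) → ℕ) (hf : ∀ l, f (l + 1) = f l) (l : Fin (k + 3)) :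
    f l = f 0 := by
  induction l using Fin.induction with
  | zero => rfl
  | succ l ih => rw [← ih, ← Fin.coeSucc_eq_succ, hf]

/-- The mean of the statistic is close to one. -/
lemma mean_Dm (m : ℕ) (hn : 0 < n) {lam : ℝ} (hlam : 0 < lam) :
    |∫ g, Dm n m g ∂stdPi (Fin n × Fin n) - 1| ≤
      ((m + 2 : ℕ) * (2 * (m + 3 : ℕ) : ℝ) ^ (m + 2) + 1) * err' n (m + 3) 1 lam := by
  classical
  have hn' : (0 : ℝ) < n := by exact_mod_cast hn
  set σ := Equiv.addRight (1 : Fin (m + 3)) with hσ
  have hL : (univ.erase (0 : Fin (m + 3))).card = m + 2 := by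
    rw [card_erase_of_mem (mem_univ _), card_univ, Fintype.card_fin]; rfl
  have hlab : Label σ (fun _ : Fin (m + 3) => 0) := ⟨fun _ => rfl, fun f hf l l' _ =>
    (const_orbit f (fun k => by simpa [hσ] using hf k) l).trans
      (const_orbit f (fun k => by simpa [hσ] using hf k) l').symm⟩
  have h1 := main_le σ (noShort_addRight m) hlab (r := 1) (fun _ => Nat.one_pos) (m + 3)
    (univ.erase 0) {0} (by rw [hL]; omega) (by simp)
    (by ext k; by_cases hk : k = 0 <;> simp [hk])
    (fun s hs => ⟨0, mem_singleton_self 0, by omega⟩) n 1 lam hn zero_le_one hlam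
  rw [Fintype.card_fin, hL, card_inj, Fintype.card_fin] at h1
  have eI : ∫ g, Dm n m g ∂stdPi (Fin n × Fin n) = wgt n m *
      ∑ i ∈ inj (Fin (m + 3)) n, trm σ 1 i (fun _ => 0) (univ.erase 0) {0} 1 := by
    simp only [Dm]
    rw [integral_const_mul, integral_finsetSum _ fun i _ => integrable_pth i]
    congr 1
    refine sum_congr (by ext i; simp [mem_inj, mem_cyc]) fun i _ =>
      integral_congr_ae (ae_of_all _ fun g => ?_)
    have e1 : asg σ i (fun _ => 0) ({0} : Finset (Fin (m + 3))) 0 = X (ed i 0) := by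
      funext x; simp [asg, edg, ed, hσ, filter_true_of_mem]
    have e2 : ∀ l, edg σ i l = ed i l := fun l => by simp [edg, ed, hσ]
    simp [pth, psi, pr, e1, funext e2]
  rw [eI]
  set C := ((m + 2 : ℕ) : ℝ) * (2 * (m + 3 : ℕ) : ℝ) ^ (m + 2) with hCdef
  set T := ∑ i ∈ inj (Fin (m + 3)) n, trm σ 1 i (fun _ => 0) (univ.erase 0) {0} 1
  set D := (n.descFactorial (m + 3) : ℝ)
  set N := (n : ℝ) ^ (m + 3) with hN
  have hw := wgt_mul_pow n m
  have hw0 : 0 ≤ wgt n m := by unfold wgt; positivity
  have h2 := mul_le_mul_of_nonneg_left h1 hw0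
  rw [← abs_of_nonneg hw0, ← abs_mul, abs_of_nonneg hw0, mul_sub, ← mul_assoc, ← mul_assoc, hw,
    ← hN, inv_mul_eq_div, inv_mul_eq_div] at h2
  have hnk : 0 < N := pow_pos hn' _
  rw [show C * (N * err' n (m + 3) 1 lam) / N = C * err' n (m + 3) 1 lam by field_simp] at h2
  have d1 : 1 - ((m + 3 : ℕ) : ℝ) ^ 2 / n ≤ D / N := by
    rw [le_div_iff₀ hnk, mul_comm]; exact descFact_ge n (m + 3) hn
  have d2 : D / N ≤ 1 := by
    rw [div_le_one hnk]
    have h := Nat.descFactorial_le_pow n (m + 3)
    simp only [D, hN]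
    exact_mod_cast h
  have d3 : ((m + 3 : ℕ) : ℝ) ^ 2 / n ≤ err' n (m + 3) 1 lam := by
    have := Q_nonneg (n := n) 1
    have : 0 ≤ Q n 1 / (2 * lam) + lam / 2 := by positivity
    unfold err'; linarith
  have := abs_le.mp h2
  rw [add_mul, one_mul]
  exact abs_le.mpr ⟨by linarith, by linarith⟩

/-- The positions of a tuple that lie on another one. -/
def pos (i : Fin (m + 3) → Fin n) (j : Fin (p + 3) → Fin n) : Finset (Fin (p + 3)) :=
  univ.filter fun l => j l ∈ univ.image i

/-- The edges of the path inside a tuple. -/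
def pathSet (i : Fin (m + 3) → Fin n) : Finset (Fin n × Fin n) := (univ.erase 0).image (ed i)

lemma card_pathSet {i : Fin (m + 3) → Fin n} (hi : Function.Injective i) :
    (pathSet i).card = m + 2 := by
  rw [pathSet, card_image_of_injective _ (ed_inj hi), card_erase_of_mem (mem_univ _), card_univ,
    Fintype.card_fin]
  omega

/-- Two paths share fewer edges than vertices. -/
lemma shared_lt (i : Fin (m + 3) → Fin n) (j : Fin (p + 3) → Fin n) (hne : (pos i j).Nonempty) :
    (pathSet i ∩ pathSet j).card < (pos i j).card := by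
  set P := pos i j
  set Z := P.filter fun l => l ≠ 0 ∧ l + 1 ∈ P with hZ
  have hsub : pathSet i ∩ pathSet j ⊆ Z.image (ed j) := by
    intro e he
    simp only [pathSet, mem_inter, mem_image, mem_erase, mem_univ, and_true] at he
    obtain ⟨⟨l', -, hl'⟩, l, hl, rfl⟩ := he
    refine mem_image_of_mem _ (mem_filter.mpr ?_)
    have hmem : ∀ v, (v = i l' ∨ v = i (l' + 1)) → v ∈ univ.image i := fun v hv => by
      rcases hv with rfl | rfl <;> exact mem_image_of_mem _ (mem_univ _)
    rcases mk'_eq_iff.mp hl' with ⟨e1, e2⟩ | ⟨e1, e2⟩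
    · exact ⟨mem_filter.mpr ⟨mem_univ _, hmem _ (Or.inl e1.symm)⟩, hl,
        mem_filter.mpr ⟨mem_univ _, hmem _ (Or.inr e2.symm)⟩⟩
    · exact ⟨mem_filter.mpr ⟨mem_univ _, hmem _ (Or.inr e2.symm)⟩, hl,
        mem_filter.mpr ⟨mem_univ _, hmem _ (Or.inl e1.symm)⟩⟩
  refine ((card_le_card hsub).trans card_image_le).trans_lt (card_lt_card ?_)
  refine Finset.ssubset_iff_subset_ne.mpr ⟨filter_subset _ _, fun hEq => ?_⟩
  obtain ⟨l, hl⟩ := hne
  have hall : ∀ x ∈ P, x ≠ 0 ∧ x + 1 ∈ P := fun x hx =>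
    (mem_filter.mp (show x ∈ Z by rw [hEq]; exact hx)).2
  open Fin.NatCast in
  have key : ∀ t : ℕ, l + (t : Fin (p + 3)) ∈ P := by
    intro t
    induction t with
    | zero => simpa using hl
    | succ t ih => rw [Nat.cast_succ, ← add_assoc]; exact (hall _ ih).2
  open Fin.NatCast in
  have h0 := key (-l : Fin (p + 3)).val
  open Fin.NatCast in
  rw [Fin.cast_val_eq_self, add_neg_cancel] at h0
  exact (hall 0 h0).1 rfl

lemma abs_two {e e' : Fin n × Fin n} (s : ℕ) (x : Fin n → Bool) :
    |(if s = 0 then X e else X e') x| = 1 := by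
  split_ifs <;> exact abs_X _ x

lemma pth_mul (i : Fin (m + 3) → Fin n) (j : Fin (p + 3) → Fin n) (g : Fin n × Fin n → ℝ) :
    pth i g * pth j g = mon3 (pathSet i ∩ pathSet j)
      ((pathSet i ∪ pathSet j) \ (pathSet i ∩ pathSet j)) g *
        pr 1 (fun s => if s = 0 then X (ed i 0) else X (ed j 0)) 2 g := by
  simp only [pth, psi, pr, prod_range_succ, prod_range_zero, one_mul]
  rw [show ((univ.erase 0).image (ed i)) = pathSet i from rfl,
    show ((univ.erase 0).image (ed j)) = pathSet j from rfl]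
  have h1 : mon (pathSet i) g * mon (pathSet j) g =
      mon (pathSet i ∪ pathSet j) g * mon (pathSet i ∩ pathSet j) g :=
    (prod_union_inter).symm
  have h2 : mon ((pathSet i ∪ pathSet j) \ (pathSet i ∩ pathSet j)) g *
      mon (pathSet i ∩ pathSet j) g = mon (pathSet i ∪ pathSet j) g :=
    prod_sdiff inter_subset_union
  simp only [if_true, if_neg one_ne_zero, mon3]
  calc mon (pathSet i) g * mu 1 g (X (ed i 0)) * (mon (pathSet j) g * mu 1 g (X (ed j 0)))
      = (mon (pathSet i) g * mon (pathSet j) g) *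
          (mu 1 g (X (ed i 0)) * mu 1 g (X (ed j 0))) := by ring
    _ = _ := by rw [h1, ← h2]; ring

lemma integrable_pth_mul (i : Fin (m + 3) → Fin n) (j : Fin (p + 3) → Fin n) :
    Integrable (fun g => pth i g * pth j g) (stdPi (Fin n × Fin n)) :=
  (integrable_mul_pr (integrable_mon3 _ _) 1 (fun s x => abs_two s x) 2).congr
    (ae_of_all _ fun g => (pth_mul i j g).symm)

/-- Pairs of paths meeting each other are negligible. -/
lemma meeting (m p : ℕ) (hn : 0 < n) :
    wgt n m * wgt n p * ∑ i ∈ cyc n m, ∑ j ∈ (cyc n p).filter (fun j => (pos i j).Nonempty),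
      |∫ g, pth i g * pth j g ∂stdPi (Fin n × Fin n)| ≤
        (2 * (m + p + 6 : ℕ) : ℝ) ^ (m + p + 4) * (m + 4 : ℝ) ^ (p + 3) / n := by
  set Cs := (2 * (m + p + 6 : ℕ) : ℝ) ^ (m + p + 4) with hCs
  have hCs0 : 0 ≤ Cs := by positivity
  have hbase : (1 : ℝ) ≤ 2 * (m + p + 6 : ℕ) := by
    have : (1 : ℝ) ≤ (m + p + 6 : ℕ) := by exact_mod_cast (by omega : 1 ≤ m + p + 6)
    linarith
  have hsumP : ∑ P : Finset (Fin (p + 3)), (m + 3 : ℝ) ^ P.card = (m + 4 : ℝ) ^ (p + 3) := by
    have h := sum_pow_mul_eq_add_pow (m + 3 : ℝ) 1 (univ : Finset (Fin (p + 3)))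
    rw [powerset_univ, card_univ, Fintype.card_fin] at h
    simp only [one_pow, mul_one] at h
    rw [h, show (m + 3 : ℝ) + 1 = m + 4 by ring]
  rw [← hsumP]
  have hn' : (0 : ℝ) < n := by exact_mod_cast hn
  have hn1 : (1 : ℝ) ≤ n := by exact_mod_cast hn
  have hu0 : (0 : ℝ) ≤ 1 / n := by positivity
  have hu1 : (1 : ℝ) / n ≤ 1 := (div_le_one hn').mpr hn1
  have hone : ∀ i ∈ cyc n m, ∀ j ∈ cyc n p, (pos i j).Nonempty →
      wgt n m * wgt n p * |∫ g, pth i g * pth j g ∂stdPi (Fin n × Fin n)| ≤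
        Cs * ((1 : ℝ) / n) ^ ((m + 3) + (p + 3) + 1 - (pos i j).card) := by
    intro i hi j hj hne
    have hii := mem_cyc.mp hi
    have hjj := mem_cyc.mp hj
    set A := pathSet i
    set B := pathSet j
    set U := (A ∪ B) \ (A ∩ B)
    have hUc : U.card + 2 * (A ∩ B).card = (m + 2) + (p + 2) := by
      have h1 := card_sdiff_add_card_eq_card (inter_subset_union (s := A) (t := B))
      have h2 := card_union_add_card_inter A B
      rw [card_pathSet hii, card_pathSet hjj] at h2
      have hU : U.card = ((A ∪ B) \ (A ∩ B)).card := rfl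
      omega
    have hpairs : ∀ e ∈ U, e ∈ pairs n := by
      intro e he
      simp only [U, A, B, pathSet, Finset.mem_sdiff, mem_union, mem_image] at he
      rcases he.1 with ⟨l, -, rfl⟩ | ⟨l, -, rfl⟩
      · exact ed_mem hii l
      · exact ed_mem hjj l
    have hb := crude (m + p + 6) U.card 2 (by omega) n 1 zero_le_one (A ∩ B) U rfl disjoint_sdiff hpairs
      (fun s => if s = 0 then X (ed i 0) else X (ed j 0)) fun s x => abs_two s x
    have hb : |∫ g, pth i g * pth j g ∂stdPi (Fin n × Fin n)| ≤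
        (1 / √(n : ℝ)) ^ U.card * (2 * (m + p + 6 : ℕ) : ℝ) ^ U.card := by
      simp only [pth_mul]; exact hb
    have hCu : (2 * (m + p + 6 : ℕ) : ℝ) ^ U.card ≤ Cs :=
      pow_le_pow_right₀ hbase (by omega)
    refine (mul_le_mul_of_nonneg_left (hb.trans (mul_le_mul_of_nonneg_left hCu (by positivity)))
      (by unfold wgt; positivity)).trans ?_
    rw [← mul_assoc, mul_comm _ Cs]
    refine mul_le_mul_of_nonneg_left ?_ hCs0
    have hs : (A ∩ B).card < (pos i j).card := shared_lt i j hne
    simp only [wgt]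
    rw [← pow_add, ← pow_add,
      show m + 4 + (p + 4) + U.card = 2 * ((m + 3) + (p + 3) - (A ∩ B).card) by omega, pow_mul,
      div_pow, one_pow, Real.sq_sqrt hn'.le]
    exact pow_le_pow_of_le_one hu0 hu1 (by omega)
  have hfix : ∀ i ∈ cyc n m, wgt n m * wgt n p *
      ∑ j ∈ (cyc n p).filter (fun j => (pos i j).Nonempty),
        |∫ g, pth i g * pth j g ∂stdPi (Fin n × Fin n)| ≤
      Cs * ∑ P : Finset (Fin (p + 3)), (m + 3 : ℝ) ^ P.card *
        ((1 : ℝ) / n) ^ (m + 4) := by
    intro i hi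
    rw [mul_sum]
    refine (sum_le_sum fun j hj => hone i hi j (mem_filter.mp hj).1 (mem_filter.mp hj).2).trans ?_
    rw [← sum_fiberwise_of_maps_to (g := fun j => pos i j) (t := (univ : Finset (Finset (Fin (p + 3)))))
      (fun _ _ => mem_univ _), mul_sum]
    refine sum_le_sum fun P _ => ?_
    refine (sum_le_sum fun j hj => le_of_eq (by rw [(mem_filter.mp hj).2])).trans ?_
    rw [sum_const, nsmul_eq_mul, mul_left_comm]
    refine mul_le_mul_of_nonneg_left ?_ hCs0
    set F : Fin (p + 3) → Finset (Fin n) := fun l => if l ∈ P then univ.image i else univ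
    have hcard : (((cyc n p).filter (fun j => (pos i j).Nonempty)).filter fun j => pos i j = P).card ≤
        (m + 3) ^ P.card * n ^ (p + 3 - P.card) := by
      refine (card_le_card (t := Fintype.piFinset F) fun j hj => ?_).trans ?_
      · rw [Fintype.mem_piFinset]
        intro l
        simp only [F]
        split_ifs with h
        · rw [← (mem_filter.mp hj).2] at h; exact (mem_filter.mp h).2
        · exact mem_univ _
      · rw [Fintype.card_piFinset]
        refine (Finset.prod_le_prod (g := fun l => if l ∈ P then m + 3 else n)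
          (fun _ _ => Nat.zero_le _) fun l _ => ?_).trans (le_of_eq ?_)
        · simp only [F]
          split_ifs
          · exact card_image_le.trans (le_of_eq (by simp))
          · simp
        · rw [prod_ite, prod_const, prod_const, filter_mem_eq_inter, univ_inter,
            filter_not, card_sdiff_of_subset (filter_subset _ _), card_univ, Fintype.card_fin,
            filter_mem_eq_inter, univ_inter]
    have hP : P.card ≤ p + 3 := (card_le_univ P).trans (le_of_eq (Fintype.card_fin _))
    refine (mul_le_mul_of_nonneg_right (Nat.cast_le.mpr hcard) (by positivity)).trans (le_of_eq ?_)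
    push_cast
    rw [mul_assoc]
    congr 1
    rw [show m + 3 + (p + 3) + 1 - P.card = (p + 3 - P.card) + (m + 4) by omega, pow_add,
      ← mul_assoc, ← mul_pow, mul_one_div_cancel hn'.ne', one_pow, one_mul]
  rw [mul_sum]
  refine (sum_le_sum hfix).trans ?_
  rw [sum_const, nsmul_eq_mul, card_cyc, ← sum_mul]
  have hd : (n.descFactorial (m + 3) : ℝ) ≤ (n : ℝ) ^ (m + 3) := by
    exact_mod_cast Nat.descFactorial_le_pow n (m + 3)
  have hs0 : 0 ≤ ∑ P : Finset (Fin (p + 3)), (m + 3 : ℝ) ^ P.card :=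
    sum_nonneg fun P _ => by positivity
  refine (mul_le_mul_of_nonneg_right hd (mul_nonneg hCs0 (mul_nonneg hs0 (by positivity)))).trans
    (le_of_eq ?_)
  rw [div_pow, one_pow, pow_succ (n : ℝ) (m + 3)]
  field_simp

/-- Rotation of the two cycles. -/
def rot (m p : ℕ) : Equiv.Perm (Fin (m + 3) ⊕ Fin (p + 3)) :=
  Equiv.sumCongr (Equiv.addRight 1) (Equiv.addRight 1)

lemma noShort_rot (m p : ℕ) : NoShort (rot m p) := by
  rintro (l | l) <;> simp [rot, add_two_ne]

/-- The orbit of a position. -/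
def side {α β : Type*} : α ⊕ β → ℕ := Sum.elim (fun _ => 0) (fun _ => 1)

lemma label_rot (m p : ℕ) : Label (rot m p) side := by
  refine ⟨by rintro (l | l) <;> simp [rot, side], fun f hf l l' h => ?_⟩
  have h1 := const_orbit (fun l => f (Sum.inl l)) fun l => by simpa [rot] using hf (Sum.inl l)
  have h2 := const_orbit (fun l => f (Sum.inr l)) fun l => by simpa [rot] using hf (Sum.inr l)
  rcases l with l | l <;> rcases l' with l' | l' <;> simp [side] at h ⊢
  · exact (h1 l).trans (h1 l').symm
  · exact (h2 l).trans (h2 l').symm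

/-- The edge positions not at an origin. -/
def inner (m p : ℕ) : Finset (Fin (m + 3) ⊕ Fin (p + 3)) :=
  (univ.erase 0).disjSum (univ.erase 0)

/-- The origins. -/
def orig (m p : ℕ) : Finset (Fin (m + 3) ⊕ Fin (p + 3)) :=
  ({0} : Finset (Fin (m + 3))).disjSum ({0} : Finset (Fin (p + 3)))

lemma pair_trm {i : Fin (m + 3) → Fin n} {j : Fin (p + 3) → Fin n}
    (hf : Function.Injective (Sum.elim i j)) :
    trm (rot m p) 1 (Sum.elim i j) side (inner m p) (orig m p) 2 =
      ∫ g, pth i g * pth j g ∂stdPi (Fin n × Fin n) := by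
  classical
  have el : ∀ l, edg (rot m p) (Sum.elim i j) (Sum.inl l) = ed i l := fun l => by simp [edg, rot, ed]
  have er : ∀ l, edg (rot m p) (Sum.elim i j) (Sum.inr l) = ed j l := fun l => by simp [edg, rot, ed]
  have hinj := edg_inj (noShort_rot m p) hf
  have hi : Function.Injective i := fun a b h => Sum.inl_injective (hf (by simpa using h))
  have hj : Function.Injective j := fun a b h => Sum.inr_injective (hf (by simpa using h))
  refine integral_congr_ae (ae_of_all _ fun g => ?_)
  simp only [pth, psi, mon]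
  rw [prod_image fun a _ b _ h => hinj h, prod_image fun a _ b _ h => ed_inj hi h,
    prod_image fun a _ b _ h => ed_inj hj h, inner, prod_disjSum]
  simp only [el, er]
  have a0 : asg (rot m p) (Sum.elim i j) side (orig m p) 0 = X (ed i 0) := by
    have hs : (orig m p).filter (fun l => side l = 0) = {Sum.inl 0} := by
      ext l; rw [Finset.mem_filter]; rcases l with l | l <;> simp [orig, side]
    funext x; simp [asg, hs, el]
  have a1 : asg (rot m p) (Sum.elim i j) side (orig m p) 1 = X (ed j 0) := by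
    have hs : (orig m p).filter (fun l => side l = 1) = {Sum.inr 0} := by
      ext l; rw [Finset.mem_filter]; rcases l with l | l <;> simp [orig, side]
    funext x; simp [asg, hs, er]
  simp only [pr, prod_range_succ, prod_range_zero, one_mul, a0, a1]
  ring

/-- The second moment of the statistic is at most about one. -/
lemma second_Dm (m p : ℕ) (hn : 0 < n) {lam : ℝ} (hlam : 0 < lam) :
    ∫ g, Dm n m g * Dm n p g ∂stdPi (Fin n × Fin n) ≤
      1 + (m + p + 4 : ℕ) * (2 * (m + p + 6 : ℕ) : ℝ) ^ (m + p + 4) *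
          err' n ((m + 3) + (p + 3)) 1 lam +
        (2 * (m + p + 6 : ℕ) : ℝ) ^ (m + p + 4) * (m + 4 : ℝ) ^ (p + 3) / n := by
  classical
  have hcardL : (inner m p).card = m + p + 4 := by
    rw [inner, card_disjSum, card_erase_of_mem (mem_univ _), card_erase_of_mem (mem_univ _),
      card_univ, card_univ, Fintype.card_fin, Fintype.card_fin]
    omega
  have h := main_le (rot m p) (noShort_rot m p) (label_rot m p) (r := 2)
    (by rintro (l | l) <;> simp [side]) (m + p + 6) (inner m p) (orig m p) (by omega)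
    (disjoint_left.mpr (by rintro (l | l) <;> simp [inner, orig]))
    (by ext l; rcases l with l | l <;> by_cases hl : l = 0 <;> simp [inner, orig, hl])
    (fun s hs => by
      interval_cases s
      · exact ⟨Sum.inl 0, by simp [orig], rfl⟩
      · exact ⟨Sum.inr 0, by simp [orig], rfl⟩)
  have hn' : (0 : ℝ) < n := by exact_mod_cast hn
  have e : ∀ g, Dm n m g * Dm n p g = wgt n m * wgt n p *
      ∑ i ∈ cyc n m, ∑ j ∈ cyc n p, pth i g * pth j g := fun g => by
    simp only [Dm]; rw [mul_mul_mul_comm, sum_mul_sum]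
  simp only [e]
  rw [integral_const_mul, integral_finsetSum _ fun i _ =>
    integrable_finsetSum _ fun j _ => integrable_pth_mul i j]
  rw [sum_congr rfl fun i (_ : i ∈ cyc n m) => (integral_finsetSum (cyc n p)
    fun j _ => integrable_pth_mul i j).trans
      (sum_filter_add_sum_filter_not (cyc n p) (fun j => (pos i j).Nonempty)
        (fun j => ∫ g, pth i g * pth j g ∂stdPi (Fin n × Fin n))).symm]
  rw [sum_add_distrib, mul_add]
  have hw : 0 ≤ wgt n m * wgt n p := by unfold wgt; positivity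
  have hA : wgt n m * wgt n p * ∑ i ∈ cyc n m, ∑ j ∈ (cyc n p).filter
      (fun j => (pos i j).Nonempty), ∫ g, pth i g * pth j g ∂stdPi (Fin n × Fin n) ≤
        (2 * (m + p + 6 : ℕ) : ℝ) ^ (m + p + 4) * (m + 4 : ℝ) ^ (p + 3) / n :=
    (mul_le_mul_of_nonneg_left (sum_le_sum fun i _ => sum_le_sum fun j _ => le_abs_self _)
      hw).trans (meeting m p hn)
  have hsum : ∑ i ∈ cyc n m, ∑ j ∈ (cyc n p).filter (fun j => ¬(pos i j).Nonempty),
      ∫ g, pth i g * pth j g ∂stdPi (Fin n × Fin n) = ∑ f ∈ inj (Fin (m + 3) ⊕ Fin (p + 3)) n,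
        trm (rot m p) 1 f side (inner m p) (orig m p) 2 := by
    rw [sum_sigma']
    refine sum_bij' (fun q _ => Sum.elim q.1 q.2)
      (fun f _ => ⟨f ∘ Sum.inl, f ∘ Sum.inr⟩) ?_ ?_ ?_ ?_ ?_
    · intro q hq
      simp only [mem_sigma, mem_filter, mem_cyc, pos, filter_nonempty_iff, mem_univ, true_and,
        mem_image, not_exists] at hq
      exact mem_inj.mpr (hq.1.sumElim hq.2.1 fun a b hab => hq.2.2 b a hab)
    · intro f hf
      have hf' := mem_inj.mp hf
      simp only [mem_sigma, mem_filter, mem_cyc, pos, filter_nonempty_iff, mem_univ, true_and,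
        mem_image, not_exists]
      exact ⟨hf'.comp Sum.inl_injective, hf'.comp Sum.inr_injective,
        fun b a hab => by simpa using hf' hab⟩
    · intro q _; rfl
    · intro f _; funext x; cases x <;> rfl
    · intro q hq
      refine (pair_trm ?_).symm
      simp only [mem_sigma, mem_filter, mem_cyc, pos, filter_nonempty_iff, mem_univ, true_and,
        mem_image, not_exists] at hq
      exact hq.1.sumElim hq.2.1 fun a b hab => hq.2.2 b a hab
  rw [hsum]
  have hN : Fintype.card (Fin (m + 3) ⊕ Fin (p + 3)) = (m + 3) + (p + 3) := by simp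
  have h1 := (abs_le.mp (h n 1 lam hn zero_le_one hlam)).2
  rw [hcardL, hN, card_inj, hN] at h1
  have hwc : wgt n m * wgt n p * ((1 : ℝ) / √(n : ℝ)) ^ (m + p + 4) =
      ((n : ℝ) ^ ((m + 3) + (p + 3)))⁻¹ := by
    simp only [wgt]
    rw [← pow_add, ← pow_add,
      show m + 4 + (p + 4) + (m + p + 4) = 2 * ((m + 3) + (p + 3)) by ring, pow_mul, div_pow,
      one_pow, Real.sq_sqrt hn'.le, one_div, inv_pow]
  have hd : (n.descFactorial ((m + 3) + (p + 3)) : ℝ) ≤ (n : ℝ) ^ ((m + 3) + (p + 3)) := by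
    exact_mod_cast Nat.descFactorial_le_pow n _
  set N := (m + 3) + (p + 3)
  set C := ((m + p + 4 : ℕ) : ℝ) * (2 * (m + p + 6 : ℕ) : ℝ) ^ (m + p + 4) with hCdef
  set T := ∑ f ∈ inj (Fin (m + 3) ⊕ Fin (p + 3)) n, trm (rot m p) 1 f side (inner m p) (orig m p) 2
  have hp : 0 < (n : ℝ) ^ N := pow_pos hn' _
  have hc0 : (0 : ℝ) ≤ (1 / √(n : ℝ)) ^ (m + p + 4) := by positivity
  have h2 : T ≤ (1 / √(n : ℝ)) ^ (m + p + 4) * ((n : ℝ) ^ N * (1 + C * err' n N 1 lam)) := by
    have := mul_le_mul_of_nonneg_left hd hc0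
    linarith
  have h3 := mul_le_mul_of_nonneg_left h2 hw
  rw [← mul_assoc (wgt n m * wgt n p), hwc, ← mul_assoc, inv_mul_cancel₀ hp.ne', one_mul] at h3
  linarith

end Vale.Agent.P150.Crit
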