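import Vale.Agent.P146.HighTemp

/-!
A rate for the vanishing of the mean squared overlap at the critical temperature.
-/

namespace Vale.Agent.P150.Crit

open Finset MeasureTheory ProbabilityTheory Real Filter
open Vale.Agent.P150 Vale.Agent.P150.Slow Vale.Agent.P146
open scoped Topology

variable {n : ℕ}

/-- At criticality the mean squared overlap is at most `5 s` once `25 ≤ s ^ 6 n`. -/
lemma Q_one_le {s : ℝ} (hs0 : 0 < s) (hs1 : s ≤ 1 / 4) (hn : 25 ≤ s ^ 6 * n) :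
    Q n 1 ≤ 5 * s := by
  have hn0 : 0 < n := by
    rcases Nat.eq_zero_or_pos n with rfl | h
    · simp at hn; linarith
    · exact h
  have hn' : (1 : ℝ) ≤ n := by exact_mod_cast hn0
  set b := 1 - s ^ 2 with hb
  have hb1 : b < 1 := by nlinarith
  have hb0 : 0 < b := by nlinarith
  have hb2 : b ^ 2 < 1 := by nlinarith
  have hsq : s ≤ √(1 - b ^ 2) := by
    refine (Real.le_sqrt hs0.le (by linarith)).2 ?_
    rw [hb]; nlinarith
  have hinv : (√(1 - b ^ 2))⁻¹ ≤ 1 / s := by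
    rw [one_div]; exact inv_anti₀ hs0 hsq
  set D := Real.log 2 + 1 / 4 + (4 * (√(1 - b ^ 2))⁻¹ * (b ^ 2 / 4 + 1 / 2)) + 1
  have hD : D ≤ 5 / s := by
    have l1 : Real.log 2 ≤ 1 := by
      have := Real.log_le_sub_one_of_pos (show (0 : ℝ) < 2 by norm_num); linarith
    have h1 : 4 * (√(1 - b ^ 2))⁻¹ * (b ^ 2 / 4 + 1 / 2) ≤ 4 * (1 / s) * (3 / 4) :=
      mul_le_mul (by linarith) (by linarith) (by positivity) (by positivity)
    have h2 : 4 ≤ 1 / s := by rw [le_div_iff₀ hs0]; linarith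
    have e : 5 / s = 5 * (1 / s) := by ring
    simp only [D]
    linarith
  have hDn : D * √n ≤ s ^ 2 * n := by
    have h1 : 5 / s ^ 3 ≤ √(n : ℝ) := by
      refine (Real.le_sqrt (by positivity) (Nat.cast_nonneg n)).2 ?_
      rw [div_pow, div_le_iff₀ (by positivity)]
      nlinarith
    calc D * √(n : ℝ) ≤ 5 / s * √(n : ℝ) := mul_le_mul_of_nonneg_right hD (Real.sqrt_nonneg _)
      _ = s ^ 2 * (5 / s ^ 3 * √(n : ℝ)) := by field_simp
      _ ≤ s ^ 2 * (√(n : ℝ) * √(n : ℝ)) := by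
          exact mul_le_mul_of_nonneg_left
            (mul_le_mul_of_nonneg_right h1 (Real.sqrt_nonneg _)) (sq_nonneg s)
      _ = _ := by rw [Real.mul_self_sqrt (Nat.cast_nonneg n)]
  have hsn : 1 ≤ √(n : ℝ) := Real.one_le_sqrt.2 hn'
  have h1 := F_sub_le n (β := 1 - s) one_pos
  have h2 := F_le hn0 (1 - s)
  have h3 := F_ge hn0 hb2
  have h4 := F_mono n hb0 hb1.le
  have l2 : 0 ≤ Real.log 2 := Real.log_nonneg (by norm_num)
  have hr : Real.log 2 + b ^ 2 / 4 + (4 * (√(1 - b ^ 2))⁻¹ * (√n * (b ^ 2 / 4 + 1 / 2)) + 1) ≤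
      D * √n := by
    have k1 : 0 ≤ Real.log 2 * (√(n : ℝ) - 1) := mul_nonneg l2 (by linarith)
    have k2 : b ^ 2 / 4 ≤ 1 / 4 * √(n : ℝ) := by linarith
    have e : D * √(n : ℝ) = Real.log 2 * √(n : ℝ) + 1 / 4 * √(n : ℝ) +
        4 * (√(1 - b ^ 2))⁻¹ * (√n * (b ^ 2 / 4 + 1 / 2)) + √(n : ℝ) := by simp only [D]; ring
    linarith
  have h5 : n * b ^ 2 / 4 - n * (1 - s) ^ 2 / 4 - D * √n ≤ n * (s / 2 * (1 - Q n 1)) := by
    have e : (n : ℝ) * ((1 - (1 - s)) * (1 / 2 * (1 - Q n 1))) = n * (s / 2 * (1 - Q n 1)) := by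
      ring
    linarith
  have h6 : (n : ℝ) * (s * Q n 1) ≤ (n : ℝ) * (s * (4 * s)) := by
    have e : (n : ℝ) * b ^ 2 = n - 2 * (s ^ 2 * n) + n * s ^ 4 := by simp only [hb]; ring
    have e3 : (n : ℝ) * (1 - s) ^ 2 = n - 2 * (n * s) + n * s ^ 2 := by ring
    have k : 0 ≤ (n : ℝ) * s ^ 4 := by positivity
    have k2 : 0 ≤ (n : ℝ) * s ^ 2 := by positivity
    have e4 : (n : ℝ) * (s / 2 * (1 - Q n 1)) = n * s / 2 - n * (s * Q n 1) / 2 := by ring
    have e5 : (n : ℝ) * (s * (4 * s)) = 4 * (n * s ^ 2) := by ring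
    have e6 : s ^ 2 * (n : ℝ) = n * s ^ 2 := by ring
    linarith
  have h7 := le_of_mul_le_mul_left (le_of_mul_le_mul_left h6 (by linarith)) hs0
  linarith

end Vale.Agent.P150.Crit
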