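import Vale.Agent.P150.Crit.Lower
import Vale.Agent.P150.Crit.QRate

/-!
At the critical temperature `n` times the mean squared overlap is at least of order
`log n / log (log n)` in probability.
-/

namespace Vale.Agent.P150.Crit

open Finset MeasureTheory ProbabilityTheory Real Filter
open Vale.Agent.P150 Vale.Agent.P150.Slow Vale.Agent.P146
open scoped Topology

/-- The path length used at size `n`. -/
noncomputable def len (n : ℕ) : ℕ :=
  ⌊Real.log n / (300 * Real.log (Real.log n))⌋₊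

/-- The bound on all error constants up to path length `K`. -/
noncomputable def big (K : ℕ) : ℝ := (4 * K + 12 : ℕ) ^ (3 * (4 * K + 12))

lemma pow_le_big {K a : ℕ} {x : ℝ} (hx0 : 0 ≤ x) (hx : x ≤ (4 * K + 12 : ℕ))
    (ha : a ≤ 4 * K + 12) : x ^ a ≤ ((4 * K + 12 : ℕ) : ℝ) ^ (4 * K + 12) :=
  (pow_le_pow_left₀ hx0 hx a).trans
    (pow_le_pow_right₀ (by exact_mod_cast (by omega : 1 ≤ 4 * K + 12)) ha)

lemma stat_bounds {n K : ℕ} (hn : 0 < n) {lam δ : ℝ} (hlam : 0 < lam)
    (hδ : ∀ k ≤ 2 * K + 4, err' n k 1 lam ≤ δ) (hδn : (1 : ℝ) / n ≤ δ) :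
    (∀ m ∈ range K, |∫ g, Dm n m g ∂stdPi (Fin n × Fin n) - 1| ≤ big K * δ) ∧
    ∀ m ∈ range K, ∀ p ∈ range K,
      ∫ g, Dm n m g * Dm n p g ∂stdPi (Fin n × Fin n) ≤ 1 + big K * δ := by
  set M := 4 * K + 12 with hM
  set A := (M : ℝ) ^ M with hA
  have hM2 : (2 : ℝ) ≤ M := by exact_mod_cast (by omega : 2 ≤ M)
  have hA1 : (2 : ℝ) ≤ A := by
    refine hM2.trans ?_
    calc (M : ℝ) = (M : ℝ) ^ 1 := (pow_one _).symm
      _ ≤ A := pow_le_pow_right₀ (by linarith) (by omega)
  have hMA : (M : ℝ) ≤ A := by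
    calc (M : ℝ) = (M : ℝ) ^ 1 := (pow_one _).symm
      _ ≤ A := pow_le_pow_right₀ (by linarith) (by omega)
  have hbig : big K = A * A * A := by
    rw [big, hA, ← pow_add, ← pow_add]; congr 1; omega
  have h2A : A + 1 + A * A ≤ A * A * A ∧ A * A + 1 ≤ A * A * A := by
    constructor <;> nlinarith
  have hδ0 : 0 ≤ δ := le_trans (by positivity) hδn
  have herr0 : ∀ k, 0 ≤ err' n k 1 lam := fun k => by
    have := Q_nonneg (n := n) 1
    unfold err'; positivity
  refine ⟨fun m hm => ?_, fun m hm p hp => ?_⟩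
  · have hm' := mem_range.mp hm
    refine (mean_Dm m hn hlam).trans (mul_le_mul ?_ (hδ _ (by omega)) (herr0 _) ?_)
    · rw [hbig]
      refine le_trans (add_le_add (mul_le_mul (b := (M : ℝ)) ?_ (pow_le_big (K := K) (by positivity) ?_ ?_)
        (by positivity) (by positivity)) le_rfl) (le_trans ?_ h2A.2)
      · exact_mod_cast (by omega : m + 2 ≤ M)
      · exact_mod_cast (by omega : 2 * (m + 3) ≤ M)
      · omega
      · rw [← hM, ← hA]
        linarith [mul_le_mul_of_nonneg_right hMA (by linarith : (0 : ℝ) ≤ A)]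
    · rw [hbig]; positivity
  · have hm' := mem_range.mp hm
    have hp' := mem_range.mp hp
    refine (second_Dm m p hn hlam).trans ?_
    rw [add_assoc]
    refine add_le_add le_rfl ?_
    have u1 : ((m + p + 4 : ℕ) : ℝ) * (2 * (m + p + 6 : ℕ) : ℝ) ^ (m + p + 4) *
        err' n ((m + 3) + (p + 3)) 1 lam ≤ A * A * δ := by
      refine mul_le_mul (mul_le_mul (le_trans ?_ hMA) (pow_le_big (K := K) (by positivity) ?_ ?_)
        (by positivity) (by positivity)) (hδ _ (by omega)) (herr0 _) (by positivity)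
      · exact_mod_cast (by omega : m + p + 4 ≤ M)
      · exact_mod_cast (by omega : 2 * (m + p + 6) ≤ M)
      · omega
    have u2 : (2 * (m + p + 6 : ℕ) : ℝ) ^ (m + p + 4) * (m + 4 : ℝ) ^ (p + 3) / n ≤ A * A * δ := by
      rw [div_eq_mul_one_div]
      refine mul_le_mul (mul_le_mul (pow_le_big (K := K) (by positivity) ?_ ?_)
        (pow_le_big (K := K) (by positivity) ?_ ?_) (by positivity) (by positivity)) hδn
        (by positivity) (by positivity)
      · exact_mod_cast (by omega : 2 * (m + p + 6) ≤ M)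
      · omega
      · exact_mod_cast (by omega : m + 4 ≤ M)
      · omega
    have : 2 * (A * A) * δ ≤ A * A * A * δ :=
      mul_le_mul_of_nonneg_right (by nlinarith) hδ0
    rw [hbig]
    linarith

/-- The total error at size `n`. -/
lemma err_len : ∀ᶠ n : ℕ in atTop, ∃ lam δ : ℝ, 0 < lam ∧
    (∀ k ≤ 2 * len n + 4, err' n k 1 lam ≤ δ) ∧ (1 : ℝ) / n ≤ δ ∧
    big (len n) * δ ≤ 7 * Real.exp (-(Real.log n / 30)) ∧
    Real.log n / (600 * Real.log (Real.log n)) ≤ len n := by
  have hll : Tendsto (fun n : ℕ => Real.log (n : ℝ)) atTop atTop :=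
    Real.tendsto_log_atTop.comp tendsto_natCast_atTop_atTop
  have hsmall : ∀ᶠ x : ℝ in atTop, 16 ≤ x ∧ 1 ≤ Real.log x ∧ Real.log x ≤ 1 / 100000 * x := by
    filter_upwards [eventually_ge_atTop 16, Real.tendsto_log_atTop.eventually_ge_atTop 1,
      Real.isLittleO_log_id_atTop.def (show (0 : ℝ) < 1 / 100000 by norm_num)] with x h1 h2 h3
    refine ⟨h1, h2, ?_⟩
    rw [Real.norm_eq_abs, abs_of_nonneg (by linarith), id_eq, Real.norm_eq_abs,
      abs_of_nonneg (by linarith)] at h3
    exact h3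
  filter_upwards [hll.eventually hsmall, eventually_ge_atTop (8 ^ 6)] with n ⟨hl, hv1, hv⟩ hn
  set ℓ := Real.log (n : ℝ) with hℓ
  set v := Real.log ℓ with hv'
  have hn0 : 0 < n := lt_of_lt_of_le (by norm_num) hn
  have hn' : (0 : ℝ) < n := by exact_mod_cast hn0
  set K := len n with hK
  have hK1 : (K : ℝ) ≤ ℓ / (300 * v) := Nat.floor_le (by positivity)
  have hK2 : ℓ / (300 * v) - 1 < K := by
    have := Nat.lt_floor_add_one (ℓ / (300 * v))
    simp only [hK, len, ← hℓ, ← hv']; linarith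
  have hx2 : 2 ≤ ℓ / (300 * v) := by rw [le_div_iff₀ (by positivity)]; linarith
  have hKv : (K : ℝ) * v ≤ ℓ / 300 := by
    calc (K : ℝ) * v ≤ ℓ / (300 * v) * v := mul_le_mul_of_nonneg_right hK1 (by linarith)
      _ = ℓ / 300 := by field_simp
  set M : ℝ := ((4 * K + 12 : ℕ) : ℝ) with hMdef
  have hM0 : M = 4 * K + 12 := by simp [hMdef]
  have hMl : M ≤ ℓ := by
    have : (K : ℝ) ≤ ℓ / 300 := le_trans (le_mul_of_one_le_right (Nat.cast_nonneg K) hv1) hKv
    rw [hM0]; linarith
  have hM1 : 1 ≤ M := by rw [hM0]; linarith [(Nat.cast_nonneg K : (0 : ℝ) ≤ K)]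
  -- the scale
  set r := Real.exp (-(ℓ / 12)) with hr
  set s := 2 * r ^ 2 with hs
  have hnr : (n : ℝ) = Real.exp ℓ := (Real.exp_log hn').symm
  have hs6 : s ^ 6 * n = 64 := by
    rw [hs, hr, hnr, mul_pow, ← pow_mul, ← Real.exp_nat_mul, mul_assoc, ← Real.exp_add]
    norm_num
    rw [show (12 : ℝ) * (ℓ / 12) = ℓ by ring, neg_add_cancel]
  have hs4 : s ≤ 1 / 4 := by
    refine (pow_le_pow_iff_left₀ (by positivity) (by norm_num) (show (6 : ℕ) ≠ 0 by norm_num)).1 ?_
    refine le_of_mul_le_mul_right ?_ hn'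
    rw [hs6]
    have h8 : (262144 : ℝ) ≤ n := by exact_mod_cast (le_trans (by norm_num) hn : 262144 ≤ n)
    rw [show ((1 : ℝ) / 4) ^ 6 = 1 / 4096 by norm_num]
    linarith
  have hQ := Q_one_le (n := n) (by positivity) hs4 (by rw [hs6]; norm_num)
  have hnd : (1 : ℝ) / n ≤ r := by
    rw [hr, hnr, one_div, ← Real.exp_neg]
    exact Real.exp_le_exp.2 (by linarith)
  refine ⟨r, 6 * r + M ^ 2 * r, by positivity, fun k hk => ?_, ?_, ?_, ?_⟩
  · have h1 : Q n 1 / (2 * r) ≤ 5 * r := by
      rw [div_le_iff₀ (by positivity)]; rw [hs] at hQ; linarith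
    have h2 : (k : ℝ) ^ 2 / n ≤ M ^ 2 * r := by
      rw [div_eq_mul_one_div]
      refine mul_le_mul (pow_le_pow_left₀ (Nat.cast_nonneg k) ?_ 2) hnd (by positivity)
        (by positivity)
      rw [hMdef]; exact_mod_cast (by omega : k ≤ 4 * K + 12)
    have : 0 < r := Real.exp_pos _
    unfold err'
    linarith
  · have : 0 ≤ M ^ 2 * r := by positivity
    have : 0 < r := Real.exp_pos _
    linarith
  · have hlogM : Real.log M ≤ v := Real.log_le_log (by linarith) hMl
    set a := 3 * (4 * K + 12) + 2 with ha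
    have hpow : big K * M ^ 2 ≤ Real.exp (ℓ / 20) := by
      rw [big, ← hMdef, ← pow_add, ← ha, ← Real.exp_log (pow_pos (by linarith : 0 < M) a)]
      refine Real.exp_le_exp.2 ?_
      rw [Real.log_pow]
      have e : (a : ℝ) = 12 * K + 38 := by simp [ha]; ring
      refine (mul_le_mul_of_nonneg_left hlogM (Nat.cast_nonneg a)).trans ?_
      rw [e]
      linarith
    have hb0 : 0 ≤ big K := by unfold big; positivity
    have hr0 : 0 < r := Real.exp_pos _
    calc big K * (6 * r + M ^ 2 * r) ≤ big K * (7 * M ^ 2 * r) := by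
          refine mul_le_mul_of_nonneg_left ?_ hb0
          nlinarith [mul_le_mul_of_nonneg_right (one_le_pow₀ hM1 (n := 2)) hr0.le]
      _ = 7 * (big K * M ^ 2 * r) := by ring
      _ ≤ 7 * (Real.exp (ℓ / 20) * r) := by
          exact mul_le_mul_of_nonneg_left (mul_le_mul_of_nonneg_right hpow hr0.le) (by norm_num)
      _ = 7 * Real.exp (-(ℓ / 30)) := by
          rw [hr, ← Real.exp_add]; ring_nf
  · have e : ℓ / (600 * v) = ℓ / (300 * v) / 2 := by field_simp; ring
    linarith

/-- With probability tending to one `n q` exceeds every scale `o(log n / log log n)`. -/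
theorem overlap_rate {L : ℕ → ℝ} (hL : ∀ n, 0 ≤ L n)
    (h : Tendsto (fun n => L n * Real.log (Real.log n) / Real.log n) atTop (𝓝 0)) :
    Tendsto (fun n => stdPi (Fin n × Fin n) {g | (n : ℝ) * Slow.q 1 g < L n}) atTop (𝓝 0) := by
  have hll : Tendsto (fun n : ℕ => Real.log (n : ℝ)) atTop atTop :=
    Real.tendsto_log_atTop.comp tendsto_natCast_atTop_atTop
  set u : ℕ → ℝ := fun n => 84 * Real.exp (-(Real.log n / 30)) +
    2400 * (L n * Real.log (Real.log n) / Real.log n) with hu
  have hu0 : Tendsto u atTop (𝓝 0) := by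
    have h1 : Tendsto (fun n : ℕ => Real.exp (-(Real.log n / 30))) atTop (𝓝 0) :=
      Real.tendsto_exp_neg_atTop_nhds_zero.comp (hll.atTop_div_const (by norm_num))
    simpa [hu] using (h1.const_mul 84).add (h.const_mul 2400)
  refine tendsto_of_tendsto_of_tendsto_of_le_of_le' tendsto_const_nhds
    (by simpa using ENNReal.tendsto_ofReal hu0) (Eventually.of_forall fun _ => zero_le) ?_
  filter_upwards [err_len, hll.eventually_gt_atTop 0,
    hll.eventually (Real.tendsto_log_atTop.eventually_gt_atTop 0), eventually_gt_atTop 0]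
    with n ⟨lam, δ, hlam, hδ, hδn, hsm, hlen⟩ hl hv hn
  have hx : 0 < Real.log (n : ℝ) / (600 * Real.log (Real.log n)) := by positivity
  have hlenr : (0 : ℝ) < len n := lt_of_lt_of_le hx hlen
  obtain ⟨a, b⟩ := stat_bounds hn hlam hδ hδn
  have hδ0 : 0 ≤ δ := le_trans (by positivity) hδn
  refine (overlap_bound hn (by exact_mod_cast hlenr) (hL n) (by unfold big; positivity) a b).trans
    (ENNReal.ofReal_le_ofReal ?_)
  have h2 : 4 * L n / (len n : ℝ) ≤ 4 * L n / (Real.log n / (600 * Real.log (Real.log n))) :=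
    div_le_div_of_nonneg_left (by have := hL n; positivity) hx hlen
  have e : 4 * L n / (Real.log n / (600 * Real.log (Real.log n))) =
      2400 * (L n * Real.log (Real.log n) / Real.log n) := by field_simp; ring
  simp only [hu]
  linarith

end Vale.Agent.P150.Crit
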