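import Vale.Agent.P146.Expansion

/-!
Integration by parts for monomials against products of Gibbs means, for an arbitrary family of
edges: a crude bound, and the expansion along the cycles of a permutation without short orbits.
-/

namespace Vale.Agent.P150.Crit

open Finset MeasureTheory ProbabilityTheory Real Filter
open Vale.Agent.P150 Vale.Agent.P150.Slow Vale.Agent.P146

variable {n : ℕ}

/-- A product of Gibbs means. -/
noncomputable def pr (β : ℝ) (F : ℕ → (Fin n → Bool) → ℝ) (r : ℕ) (g : Fin n × Fin n → ℝ) : ℝ :=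
  ∏ s ∈ range r, mu β g (F s)

@[fun_prop]
lemma continuous_pr (β : ℝ) (F : ℕ → (Fin n → Bool) → ℝ) (r : ℕ) : Continuous (pr β F r) :=
  continuous_finsetProd _ fun _ _ => continuous_av _ _

lemma abs_pr (β : ℝ) {F : ℕ → (Fin n → Bool) → ℝ} (hF : ∀ s x, |F s x| = 1) (r : ℕ)
    (g : Fin n × Fin n → ℝ) : |pr β F r g| ≤ 1 := by
  rw [pr, abs_prod]
  refine Finset.prod_le_one (fun _ _ => abs_nonneg _) fun s _ => ?_
  rw [mu_eq]
  refine (abs_sum_le_sum_abs _ _).trans (le_of_eq ?_)
  simp [abs_mul, hF, abs_of_pos (P_pos β g _), P_sum]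

/-- Put one more pair spin into replica `s`. -/
def push (e : Fin n × Fin n) (F : ℕ → (Fin n → Bool) → ℝ) (s : ℕ) : ℕ → (Fin n → Bool) → ℝ :=
  Function.update F s fun x => X e x * F s x

/-- A new replica carrying one pair spin. -/
def fresh (e : Fin n × Fin n) (F : ℕ → (Fin n → Bool) → ℝ) (r : ℕ) : ℕ → (Fin n → Bool) → ℝ :=
  Function.update F r (X e)

lemma abs_push {e : Fin n × Fin n} {F : ℕ → (Fin n → Bool) → ℝ} (hF : ∀ s x, |F s x| = 1)
    (s t : ℕ) (x : Fin n → Bool) : |push e F s t x| = 1 := by
  by_cases h : t = s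
  · subst h; simp [push, abs_mul, abs_X, hF]
  · simp [push, h, hF]

lemma abs_fresh {e : Fin n × Fin n} {F : ℕ → (Fin n → Bool) → ℝ} (hF : ∀ s x, |F s x| = 1)
    (r t : ℕ) (x : Fin n → Bool) : |fresh e F r t x| = 1 := by
  by_cases h : t = r
  · subst h; simp [fresh, abs_X]
  · simp [fresh, h, hF]

lemma hasDeriv_pr {β : ℝ} {e : Fin n × Fin n} (he : e ∈ pairs n) (F : ℕ → (Fin n → Bool) → ℝ)
    (r : ℕ) (g : Fin n × Fin n → ℝ) (t : ℝ) :
    HasDerivAt (fun y => pr β F r (Function.update g e y))
      (β / √n * (∑ s ∈ range r, pr β (push e F s) r (Function.update g e t) -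
        r * pr β (fresh e F r) (r + 1) (Function.update g e t))) t := by
  classical
  set g' := Function.update g e t
  refine (HasDerivAt.fun_finsetProd (u := range r) fun s _ =>
    hasDeriv_av (cpl n β) (F s) e g t).congr_deriv ?_
  have hcard : (r : ℝ) * pr β (fresh e F r) (r + 1) g' =
      ∑ _s ∈ range r, pr β (fresh e F r) (r + 1) g' := by
    rw [sum_const, card_range, nsmul_eq_mul]
  rw [hcard, ← sum_sub_distrib, mul_sum]
  refine sum_congr rfl fun s hs => ?_
  have hb : av (cpl n β) g' (fun x => F s x * cpl n β e x) =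
      β / √n * mu β g' (fun x => X e x * F s x) := by
    rw [mu, ← av_mul_const]
    congr 1; funext x; simp only [cpl, if_pos he]; ring
  have hb1 : av (cpl n β) g' (cpl n β e) = β / √n * mu β g' (X e) := by
    rw [mu, ← av_mul_const]; congr 1; funext x; simp [cpl, he]
  have v1 : pr β (push e F s) r g' =
      (∏ j ∈ (range r).erase s, mu β g' (F j)) * mu β g' (fun x => X e x * F s x) := by
    rw [pr, ← prod_erase_mul _ _ hs]
    congr 1
    · exact prod_congr rfl fun j hj => by rw [push, Function.update_of_ne (ne_of_mem_erase hj)]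
    · rw [push, Function.update_self]
  have v2 : pr β (fresh e F r) (r + 1) g' =
      (∏ j ∈ (range r).erase s, mu β g' (F j)) * (mu β g' (F s) * mu β g' (X e)) := by
    rw [← mul_assoc, prod_erase_mul _ _ hs, pr, prod_range_succ]
    congr 1
    · exact prod_congr rfl fun j hj => by
        rw [fresh, Function.update_of_ne (Nat.ne_of_lt (mem_range.mp hj))]
    · rw [fresh, Function.update_self]
  simp only [smul_eq_mul]
  rw [hb, hb1, v1, v2]
  simp only [mu]
  ring

lemma integrable_mul_pr {R : (Fin n × Fin n → ℝ) → ℝ} (hR : Integrable R (stdPi (Fin n × Fin n)))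
    (β : ℝ) {F : ℕ → (Fin n → Bool) → ℝ} (hF : ∀ s x, |F s x| = 1) (r : ℕ) :
    Integrable (fun g => R g * pr β F r g) (stdPi (Fin n × Fin n)) :=
  hR.mul_bdd (c := 1) (continuous_pr β F r).aestronglyMeasurable
    (ae_of_all _ fun g => abs_pr β hF r g)

/-- One integration by parts against a factor not depending on the edge. -/
lemma pr_step {β : ℝ} {e : Fin n × Fin n} (he : e ∈ pairs n) {R : (Fin n × Fin n → ℝ) → ℝ}
    (hRc : Continuous R) (hR : ∀ g x, R (Function.update g e x) = R g)
    (i0 : Integrable R (stdPi (Fin n × Fin n)))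
    (i1 : Integrable (fun g => g e * R g) (stdPi (Fin n × Fin n)))
    {F : ℕ → (Fin n → Bool) → ℝ} (hF : ∀ s x, |F s x| = 1) (r : ℕ) :
    ∫ g, g e * R g * pr β F r g ∂stdPi (Fin n × Fin n) = β / √n *
      (∑ s ∈ range r, ∫ g, R g * pr β (push e F s) r g ∂stdPi (Fin n × Fin n) -
        r * ∫ g, R g * pr β (fresh e F r) (r + 1) g ∂stdPi (Fin n × Fin n)) := by
  classical
  set G' := fun g => β / √n * (∑ s ∈ range r, pr β (push e F s) r g -
    r * pr β (fresh e F r) (r + 1) g) with hG'
  have hB : ∀ g, |G' g| ≤ |β / √n| * (r + r) := by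
    intro g
    simp only [hG', abs_mul]
    refine mul_le_mul_of_nonneg_left ((abs_sub _ _).trans (add_le_add ?_ ?_)) (abs_nonneg _)
    · refine (abs_sum_le_sum_abs _ _).trans ((sum_le_sum fun s _ =>
        abs_pr β (fun t x => abs_push hF s t x) r g).trans ?_)
      simp
    · rw [abs_mul, Nat.abs_cast]
      exact mul_le_of_le_one_right (Nat.cast_nonneg r)
        (abs_pr β (fun t x => abs_fresh hF r t x) _ g)
  have hG'c : Continuous G' := by simp only [hG']; fun_prop
  rw [ibp_mul e R (pr β F r) G' hR hRc.measurable (continuous_pr β F r).measurable hG'c.measurable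
    (fun g x => hasDeriv_pr he F r g x) hB (integrable_mul_pr i1 β hF r)
    (i0.mul_bdd (c := |β / √n| * (r + r)) hG'c.aestronglyMeasurable (ae_of_all _ hB))]
  simp only [hG']
  have e' : ∀ g, R g * (β / √n * (∑ s ∈ range r, pr β (push e F s) r g -
      r * pr β (fresh e F r) (r + 1) g)) =
      β / √n * (∑ s ∈ range r, R g * pr β (push e F s) r g -
        r * (R g * pr β (fresh e F r) (r + 1) g)) := fun g => by rw [← mul_sum]; ring
  simp only [e']
  have ip : ∀ s, Integrable (fun g => R g * pr β (push e F s) r g) (stdPi (Fin n × Fin n)) :=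
    fun s => integrable_mul_pr i0 β (fun t x => abs_push hF s t x) r
  have iq := integrable_mul_pr i0 β (fun t x => abs_fresh (e := e) hF r t x) (r + 1)
  rw [integral_const_mul, integral_sub (integrable_finsetSum _ fun s _ => ip s)
    (iq.const_mul _), integral_finsetSum _ (fun s _ => ip s), integral_const_mul]

/-- A squared monomial times a monomial. -/
def mon3 (T U : Finset (Fin n × Fin n)) (g : Fin n × Fin n → ℝ) : ℝ :=
  mon T g * mon T g * mon U g

@[fun_prop]
lemma continuous_mon3 (T U : Finset (Fin n × Fin n)) : Continuous (mon3 T U) := by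
  unfold mon3; fun_prop

lemma integrable_mon3 (T U : Finset (Fin n × Fin n)) :
    Integrable (mon3 T U) (stdPi (Fin n × Fin n)) := by
  have e : mon3 T U = fun g => ∏ k, g k ^
      ((if k ∈ T then 1 else 0) + (if k ∈ T then 1 else 0) + (if k ∈ U then 1 else 0)) := by
    funext g
    simp only [mon3, mon, pow_add, prod_mul_distrib, pow_ite, pow_one, pow_zero, prod_ite_mem,
      univ_inter]
  rw [e]
  exact Integrable.fintype_prod fun k => integrable_pow_gauss _

/-- Every single edge costs a factor `β / √n`. -/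
lemma crude (R u : ℕ) : ∀ r : ℕ, r + u ≤ R → ∀ (n : ℕ) (β : ℝ), 0 ≤ β →
    ∀ T U : Finset (Fin n × Fin n), U.card = u → Disjoint T U → (∀ e ∈ U, e ∈ pairs n) →
      ∀ F : ℕ → (Fin n → Bool) → ℝ, (∀ s x, |F s x| = 1) →
        |∫ g, mon3 T U g * pr β F r g ∂stdPi (Fin n × Fin n)| ≤
          (β / √n) ^ u * (2 * R : ℝ) ^ u := by
  induction u with
  | zero =>
    intro r _ n β _ T U hU _ _ F hF
    obtain rfl := card_eq_zero.mp hU
    rw [pow_zero, pow_zero, one_mul]
    refine abs_integral_le_integral_abs.trans ((integral_mono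
      (integrable_mul_pr (integrable_mon3 T ∅) β hF r).abs (integrable_mon3 T ∅) fun g => ?_).trans
      (le_of_eq ?_))
    · simp only [mon3, mon, prod_empty, mul_one, abs_mul, abs_mul_abs_self]
      exact mul_le_of_le_one_right (mul_self_nonneg _) (abs_pr β hF r g)
    · have h := integral_mon_mul T T
      simpa [mon3, mon] using h
  | succ u ih =>
    intro r hr n β hβ T U hU hd hp F hF
    have h := ih r (by omega)
    have h' := ih (r + 1) (by omega)
    have hr2 : (r : ℝ) + r ≤ 2 * R := by
      have : (r : ℝ) ≤ R := by exact_mod_cast (by omega : r ≤ R)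
      linarith
    obtain ⟨e, he⟩ := card_pos.mp (by omega : 0 < U.card)
    have hU' : (U.erase e).card = u := by rw [card_erase_of_mem he, hU]; omega
    have heT : e ∉ T := disjoint_right.mp hd he
    have hsplit : ∀ g, mon3 T U g = g e * mon3 T (U.erase e) g := fun g => by
      simp only [mon3, mon]; rw [← mul_prod_erase U _ he]; ring
    have hR : ∀ g x, mon3 T (U.erase e) (Function.update g e x) = mon3 T (U.erase e) g := by
      intro g x
      simp only [mon3, mon]
      congr 1
      · congr 1 <;> exact prod_congr rfl fun k hk =>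
          Function.update_of_ne (ne_of_mem_of_not_mem hk heT) _ _
      · exact prod_congr rfl fun k hk => Function.update_of_ne (ne_of_mem_erase hk) _ _
    simp only [hsplit]
    rw [pr_step (hp e he) (continuous_mon3 _ _) hR (integrable_mon3 _ _)
      ((integrable_mon3 T U).congr (ae_of_all _ hsplit)) hF r, abs_mul,
      abs_of_nonneg (by positivity : 0 ≤ β / √(n : ℝ)), pow_succ', mul_assoc]
    refine mul_le_mul_of_nonneg_left ((abs_sub _ _).trans ?_) (by positivity)
    have hd' : Disjoint T (U.erase e) := hd.mono_right (erase_subset _ _)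
    have hp' : ∀ k ∈ U.erase e, k ∈ pairs n := fun k hk => hp k (mem_of_mem_erase hk)
    rw [pow_succ' (2 * (R : ℝ)), mul_left_comm]
    refine le_trans ?_ (mul_le_mul_of_nonneg_right hr2 (by positivity))
    rw [add_mul]
    refine add_le_add ?_ ?_
    · refine (abs_sum_le_sum_abs _ _).trans ((sum_le_sum fun s _ =>
        h n β hβ T _ hU' hd' hp' _ fun t x => abs_push hF s t x).trans (le_of_eq ?_))
      simp
    · rw [abs_mul, Nat.abs_cast]
      exact (mul_le_mul_of_nonneg_left (h' n β hβ T _ hU' hd' hp' _ fun t x => abs_fresh hF r t x)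
        (Nat.cast_nonneg r)).trans (le_of_eq (by ring))

variable {ι : Type*} [Fintype ι] [DecidableEq ι] (σ : Equiv.Perm ι)

/-- The edge leaving `l`. -/
def edg (i : ι → Fin n) (l : ι) : Fin n × Fin n := mk' (i l) (i (σ l))

/-- No orbit of length at most two. -/
def NoShort : Prop := ∀ l, σ l ≠ l ∧ σ (σ l) ≠ l

variable {σ}

omit [Fintype ι] [DecidableEq ι] in
lemma edg_mem (hσ : NoShort σ) {i : ι → Fin n} (hi : Function.Injective i) (l : ι) :
    edg σ i l ∈ pairs n :=
  mk'_mem fun h => (hσ l).1 (hi h).symm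

omit [Fintype ι] [DecidableEq ι] in
lemma edg_inj (hσ : NoShort σ) {i : ι → Fin n} (hi : Function.Injective i) :
    Function.Injective (edg σ i) := by
  intro a b h
  rcases mk'_eq_iff.mp h with ⟨h1, _⟩ | ⟨h1, h2⟩
  · exact hi h1
  · exfalso
    have e1 := hi h1
    have e2 := hi h2
    rw [e1] at e2
    exact (hσ b).2 e2

variable (σ)

/-- The pair spins of the edges put in each replica. -/
def asg (i : ι → Fin n) (a : ι → ℕ) (S : Finset ι) (s : ℕ) (x : Fin n → Bool) : ℝ :=
  ∏ l ∈ S.filter (fun l => a l = s), X (edg σ i l) x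

omit [Fintype ι] [DecidableEq ι] in
lemma abs_asg (i : ι → Fin n) (a : ι → ℕ) (S : Finset ι) (s : ℕ) (x : Fin n → Bool) :
    |asg σ i a S s x| = 1 := by
  rw [asg, abs_prod]; exact prod_eq_one fun l _ => abs_X _ x

omit [Fintype ι] in
lemma filter_upd {S : Finset ι} {l : ι} (hl : l ∉ S) (a : ι → ℕ) (s t : ℕ) :
    (insert l S).filter (fun k => Function.update a l s k = t) =
      if t = s then insert l (S.filter fun k => a k = t) else S.filter fun k => a k = t := by
  ext k
  by_cases hk : k = l
  · subst hk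
    by_cases ht : t = s
    · simp [ht]
    · simp [ht, hl, Ne.symm ht]
  · by_cases ht : t = s <;> simp [hk, ht]

omit [Fintype ι] in
lemma push_asg (i : ι → Fin n) {S : Finset ι} {l : ι} (hl : l ∉ S) (a : ι → ℕ) (s : ℕ) :
    push (edg σ i l) (asg σ i a S) s = asg σ i (Function.update a l s) (insert l S) := by
  funext t x
  by_cases h : t = s
  · subst h
    simp only [push, Function.update_self, asg, filter_upd hl, if_pos]
    rw [prod_insert fun hh => hl (mem_filter.mp hh).1]
  · simp only [push, Function.update_of_ne h, asg, filter_upd hl, if_neg h]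

omit [Fintype ι] in
lemma fresh_asg (i : ι → Fin n) {S : Finset ι} {l : ι} (hl : l ∉ S) {a : ι → ℕ} {r : ℕ}
    (ha : ∀ k ∈ S, a k < r) :
    fresh (edg σ i l) (asg σ i a S) r = asg σ i (Function.update a l r) (insert l S) := by
  funext t x
  by_cases h : t = r
  · subst h
    have h0 : S.filter (fun k => a k = t) = ∅ :=
      filter_eq_empty_iff.mpr fun k hk h => (ha k hk).ne h
    simp [fresh, asg, filter_upd hl, h0]
  · simp only [fresh, Function.update_of_ne h, asg, filter_upd hl, if_neg h]

/-- The averaged term of a state. -/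
noncomputable def trm (β : ℝ) (i : ι → Fin n) (a : ι → ℕ) (L S : Finset ι) (r : ℕ) : ℝ :=
  ∫ g, mon (L.image (edg σ i)) g * pr β (asg σ i a S) r g ∂stdPi (Fin n × Fin n)

omit [Fintype ι] in
lemma trm_step (hσ : NoShort σ) {β : ℝ} {i : ι → Fin n} (hi : Function.Injective i)
    {L S : Finset ι} {l : ι} (hlL : l ∉ L) (hl : l ∉ S) {a : ι → ℕ} {r : ℕ}
    (ha : ∀ k ∈ S, a k < r) :
    trm σ β i a (insert l L) S r = β / √n *
      (∑ s ∈ range r, trm σ β i (Function.update a l s) L (insert l S) r -
        r * trm σ β i (Function.update a l r) L (insert l S) (r + 1)) := by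
  have hins : ∀ g : Fin n × Fin n → ℝ, mon ((insert l L).image (edg σ i)) g =
      g (edg σ i l) * mon (L.image (edg σ i)) g := fun g => by
    rw [mon, mon, image_insert, prod_insert]
    simp only [mem_image, not_exists, not_and]
    exact fun k hk h => hlL (edg_inj hσ hi h ▸ hk)
  simp only [trm, hins]
  rw [pr_step (edg_mem hσ hi l) (continuous_mon _) (fun g x => ?_) (integrable_mon _)
    ((integrable_mon _).congr (ae_of_all _ hins)) (abs_asg σ i a S) r]
  · simp only [push_asg σ i hl, fresh_asg σ i hl ha]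
  · simp only [mon]
    refine prod_congr rfl fun k hk => ?_
    simp only [mem_image] at hk
    obtain ⟨j, hj, rfl⟩ := hk
    rw [Function.update_of_ne fun h => hlL (by rwa [edg_inj hσ hi h] at hj)]

/-- The injective maps. -/
def inj (ι : Type*) [Fintype ι] [DecidableEq ι] (n : ℕ) : Finset (ι → Fin n) :=
  open Classical in univ.filter Function.Injective

lemma mem_inj {i : ι → Fin n} : i ∈ inj ι n ↔ Function.Injective i := by simp [inj]

lemma card_inj : (inj ι n).card = n.descFactorial (Fintype.card ι) := by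
  classical
  rw [inj, ← Fintype.card_subtype,
    Fintype.card_congr (Equiv.subtypeInjectiveEquivEmbedding ι (Fin n)), Fintype.card_embedding_eq]
  simp

/-- Two edges of one orbit lie in different replicas. -/
def Mixed (χ : ι → ℕ) (a : ι → ℕ) (S : Finset ι) : Prop :=
  ∃ l ∈ S, ∃ l' ∈ S, χ l = χ l' ∧ a l ≠ a l'

/-- `χ` separates the orbits: functions invariant along `σ` are constant on its fibres. -/
def Label (χ : ι → ℕ) : Prop :=
  (∀ l, χ (σ l) = χ l) ∧
    ∀ f : ι → ℕ, (∀ l, f (σ l) = f l) → ∀ l l', χ l = χ l' → f l = f l'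

/-- The error scale. -/
noncomputable def err' (n k : ℕ) (β lam : ℝ) : ℝ :=
  Q n β / (2 * lam) + lam / 2 + (k : ℝ) ^ 2 / n

lemma descFact_ge (n k : ℕ) (hn : 0 < n) :
    ((n : ℝ) ^ k) * (1 - (k : ℝ) ^ 2 / n) ≤ n.descFactorial k := by
  have hn' : (0 : ℝ) < n := by exact_mod_cast hn
  rcases le_or_gt k n with h | h
  · have h1 : ((n + 1 - k) ^ k : ℕ) ≤ n.descFactorial k := Nat.pow_sub_le_descFactorial n k
    have hk : (k : ℝ) ≤ n := by exact_mod_cast h
    have h2 : ((n : ℝ) - k) ^ k ≤ (n.descFactorial k : ℝ) := by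
      refine le_trans ?_ (Nat.cast_le.mpr h1)
      have e : ((n + 1 - k : ℕ) : ℝ) = n + 1 - k := by
        rw [Nat.cast_sub (by omega)]; push_cast; ring
      rw [Nat.cast_pow, e]
      exact pow_le_pow_left₀ (by linarith) (by linarith) _
    refine le_trans ?_ h2
    rw [show ((n : ℝ) - k) ^ k = (n : ℝ) ^ k * (1 + -((k : ℝ) / n)) ^ k by
      rw [← mul_pow]; congr 1; field_simp; ring]
    refine mul_le_mul_of_nonneg_left (le_trans (le_of_eq ?_) (one_add_mul_le_pow
      (a := -((k : ℝ) / n)) ?_ k)) (by positivity)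
    · ring
    · have : (k : ℝ) / n ≤ 1 := (div_le_one hn').mpr hk
      linarith
  · refine le_trans (mul_nonpos_of_nonneg_of_nonpos (by positivity) ?_) (Nat.cast_nonneg _)
    have hk : (n : ℝ) ≤ k := by exact_mod_cast h.le
    have hk1 : (1 : ℝ) ≤ k := by exact_mod_cast (show 1 ≤ k by omega)
    rw [sub_nonpos, le_div_iff₀ hn', one_mul]
    nlinarith

/-- A fully processed mixed term is small. -/
lemma mixed_last {χ : ι → ℕ} (hχ : Label σ χ) (a : ι → ℕ) (r : ℕ) (ha : ∀ l, a l < r)
    (hne : Mixed χ a univ) (β : ℝ) {lam : ℝ} (hlam : 0 < lam) (hn : 0 < n) :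
    |∑ i ∈ inj ι n, trm σ β i a ∅ univ r| ≤
      (n : ℝ) ^ Fintype.card ι * err' n (Fintype.card ι) β lam := by
  classical
  have hn' : (0 : ℝ) < n := by exact_mod_cast hn
  set μ := stdPi (Fin n × Fin n)
  set k := Fintype.card ι with hk
  set D : ℝ := (n : ℝ) ^ k * ((k : ℝ) ^ 2 / n)
  obtain ⟨l₀, hl₀⟩ : ∃ l, a (σ l) ≠ a l := by
    by_contra hc
    push Not at hc
    obtain ⟨l, _, l', _, h1, h2⟩ := hne
    exact h2 (hχ.2 a hc l l' h1)
  have hk0 : 0 < k := Fintype.card_pos_iff.mpr ⟨l₀⟩
  set b : ι → Fin r := fun l => ⟨a l, ha l⟩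
  have hb : b (σ l₀) ≠ b l₀ := fun h => hl₀ (Fin.ext_iff.mp h)
  have hpt : ∀ g, |∑ i ∈ inj ι n, pr β (asg σ i a univ) r g| ≤
      D + (n : ℝ) ^ k * (Slow.q β g / (2 * lam) + lam / 2) := by
    intro g
    have hall : |∑ i : ι → Fin n, pr β (asg σ i a univ) r g| ≤
        (n : ℝ) ^ k * (Slow.q β g / (2 * lam) + lam / 2) := by
      have e1 : ∀ i : ι → Fin n, pr β (asg σ i a univ) r g =
          ∑ x : Fin r → Fin n → Bool, (∏ s, P β g (x s)) *
            ∏ l, (spin (x (b (σ.symm l)) (i l)) * spin (x (b l) (i l))) := by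
        intro i
        simp only [pr, mu_eq]
        rw [prod_range fun s => ∑ x, P β g x * asg σ i a univ s x, Fintype.prod_sum]
        refine sum_congr rfl fun x _ => ?_
        rw [prod_mul_distrib]
        congr 1
        simp only [asg, X_mk', edg]
        have e : ∀ s : Fin r, univ.filter (fun l => a l = (s : ℕ)) =
            univ.filter fun l => b l = s :=
          fun s => filter_congr fun l _ => by simp [b, Fin.ext_iff]
        simp only [e]
        have e' : ∀ s : Fin r, ∏ l ∈ univ.filter (fun l => b l = s),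
            spin (x s (i l)) * spin (x s (i (σ l))) = ∏ l ∈ univ.filter (fun l => b l = s),
            spin (x (b l) (i l)) * spin (x (b l) (i (σ l))) := fun s =>
          prod_congr rfl fun l hl => by rw [(mem_filter.mp hl).2]
        simp only [e']
        rw [prod_fiberwise, prod_mul_distrib, prod_mul_distrib, mul_comm]
        congr 1
        exact Fintype.prod_equiv σ _ _ fun l => by simp
      simp only [e1]
      rw [sum_comm]
      have e2 : ∀ x : Fin r → Fin n → Bool, ∑ i : ι → Fin n, (∏ s, P β g (x s)) *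
          ∏ l, (spin (x (b (σ.symm l)) (i l)) * spin (x (b l) (i l))) = (∏ s, P β g (x s)) *
          ∏ l, ∑ v, spin (x (b (σ.symm l)) v) * spin (x (b l) v) := by
        intro x
        rw [← mul_sum, ← Fintype.prod_sum fun l v => spin (x (b (σ.symm l)) v) * spin (x (b l) v)]
      simp only [e2]
      have bound : ∀ x : Fin r → Fin n → Bool,
          |∏ l, ∑ v, spin (x (b (σ.symm l)) v) * spin (x (b l) v)| ≤
            (n : ℝ) ^ k * (ov (x (b l₀)) (x (b (σ l₀))) / (2 * lam) + lam / 2) := by
        intro x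
        rw [abs_prod, ← prod_erase_mul _ _ (mem_univ (σ l₀)), Equiv.symm_apply_apply]
        set R := (∑ v, spin (x (b l₀) v) * spin (x (b (σ l₀)) v)) / (n : ℝ)
        have hR : |∑ v, spin (x (b l₀) v) * spin (x (b (σ l₀)) v)| = n * |R| := by
          simp only [R, abs_div, Nat.abs_cast]; field_simp
        have hov : ov (x (b l₀)) (x (b (σ l₀))) = R ^ 2 := rfl
        have hamgm : |R| ≤ R ^ 2 / (2 * lam) + lam / 2 := by
          have h := mul_nonneg (inv_nonneg.2 (by positivity : 0 ≤ 2 * lam)) (sq_nonneg (|R| - lam))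
          have e : (2 * lam)⁻¹ * (|R| - lam) ^ 2 = R ^ 2 / (2 * lam) + lam / 2 - |R| := by
            rw [sub_sq, sq_abs]; field_simp; ring
          linarith
        rw [hR, hov, show (n : ℝ) ^ k = (n : ℝ) ^ (k - 1) * n by
          rw [← pow_succ, Nat.sub_add_cancel hk0], mul_assoc]
        refine mul_le_mul ((Finset.prod_le_prod (fun _ _ => abs_nonneg _) fun l _ =>
          abs_spin_sum_le (x (b (σ.symm l))) (x (b l))).trans (le_of_eq ?_))
          (mul_le_mul_of_nonneg_left hamgm hn'.le) (by positivity) (by positivity)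
        rw [prod_const, card_erase_of_mem (mem_univ _), card_univ]
      refine (abs_sum_le_sum_abs _ _).trans ?_
      refine (sum_le_sum fun x _ => le_of_eq_of_le (abs_mul _ _) (mul_le_mul_of_nonneg_left
        (bound x) (abs_nonneg _))).trans (le_of_eq ?_)
      have hpos : ∀ x : Fin r → Fin n → Bool, |∏ s, P β g (x s)| = ∏ s, P β g (x s) := fun x =>
        abs_of_nonneg (prod_nonneg fun s _ => (P_pos β g _).le)
      have hsum : ∑ x : Fin r → Fin n → Bool, ∏ s, P β g (x s) = 1 := by
        rw [← Fintype.prod_sum fun (_ : Fin r) u => P β g u]; simp [P_sum]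
      simp only [hpos]
      rw [← sum_P_prod β g (b l₀) (b (σ l₀)) (Ne.symm hb)]
      rw [mul_add, mul_div_assoc', mul_sum, sum_div,
        show (n : ℝ) ^ k * (lam / 2) =
          ∑ x : Fin r → Fin n → Bool, (∏ s, P β g (x s)) * ((n : ℝ) ^ k * (lam / 2)) by
            rw [← sum_mul, hsum, one_mul],
        ← sum_add_distrib]
      exact sum_congr rfl fun x _ => by ring
    have hsplit := sum_filter_add_sum_filter_not (univ : Finset (ι → Fin n))
      (fun i => Function.Injective i) (fun i => pr β (asg σ i a univ) r g)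
    have hbad : |∑ i ∈ univ.filter (fun i : ι → Fin n => ¬Function.Injective i),
        pr β (asg σ i a univ) r g| ≤ D := by
      refine (abs_sum_le_sum_abs _ _).trans
        ((sum_le_sum fun i _ => abs_pr β (abs_asg σ i a univ) r g).trans ?_)
      rw [sum_const, nsmul_eq_mul, mul_one]
      have h1 := card_filter_add_card_filter_not (s := (univ : Finset (ι → Fin n)))
        (fun i => Function.Injective i)
      rw [show univ.filter (fun i : ι → Fin n => Function.Injective i) = inj ι n from
        (filter_congr fun i _ => by rfl), card_inj, card_univ, Fintype.card_fun,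
        Fintype.card_fin] at h1
      have h2 : ((n.descFactorial k : ℕ) : ℝ) +
          ((univ.filter (fun i : ι → Fin n => ¬Function.Injective i)).card : ℝ) =
          (n : ℝ) ^ k := by exact_mod_cast h1
      have h3 := descFact_ge n k hn
      simp only [D]
      linarith
    have hcyc : ∑ i ∈ inj ι n, pr β (asg σ i a univ) r g =
        ∑ i ∈ univ.filter (fun i : ι → Fin n => Function.Injective i),
          pr β (asg σ i a univ) r g := sum_congr (filter_congr fun i _ => by rfl) fun _ _ => rfl
    rw [hcyc]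
    have := abs_le.mp hall
    have := abs_le.mp hbad
    exact abs_le.mpr ⟨by linarith, by linarith⟩
  have e : ∀ i : ι → Fin n, trm σ β i a ∅ univ r = ∫ g, pr β (asg σ i a univ) r g ∂μ := fun i => by
    simp [trm, mon, μ]
  have hint : ∀ i : ι → Fin n, Integrable (pr β (asg σ i a univ) r) μ := fun i =>
    (integrable_const (1 : ℝ)).mono' (continuous_pr β _ r).aestronglyMeasurable
      (ae_of_all _ fun g => abs_pr β (abs_asg σ i a univ) r g)
  simp only [e]
  rw [← integral_finsetSum _ fun i _ => hint i]
  refine abs_integral_le_integral_abs.trans ?_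
  have iq : Integrable (fun g => Slow.q β g / (2 * lam) + lam / 2) μ :=
    ((integrable_q β).div_const _).add (integrable_const _)
  refine (integral_mono ((integrable_finsetSum _ fun i _ => hint i).abs)
    ((integrable_const D).add (iq.const_mul _)) hpt).trans (le_of_eq ?_)
  simp only [Pi.add_apply]
  rw [integral_add (integrable_const _) (iq.const_mul _)]
  simp only [integral_const, probReal_univ, one_smul]
  rw [integral_const_mul, integral_add ((integrable_q β).div_const _) (integrable_const _),
    integral_div]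
  simp only [integral_const, probReal_univ, one_smul, D, err', Q, μ]
  ring

/-- Mixed terms are small. -/
lemma mixed_le (hσ : NoShort σ) {χ : ι → ℕ} (hχ : Label σ χ) (R : ℕ) (L : Finset ι) :
    ∀ (S : Finset ι) (a : ι → ℕ) (r : ℕ), r + L.card ≤ R → Disjoint L S → L ∪ S = univ →
      (∀ l ∈ S, a l < r) → Mixed χ a S →
      ∀ (n : ℕ) (β lam : ℝ), 0 < n → 0 ≤ β → 0 < lam →
        |∑ i ∈ inj ι n, trm σ β i a L S r| ≤ (β / √n) ^ L.card * ((2 * R : ℝ) ^ L.card *
          ((n : ℝ) ^ Fintype.card ι * err' n (Fintype.card ι) β lam)) := by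
  induction L using Finset.induction_on with
  | empty =>
    intro S a r _ _ hS ha hne n β lam hn _ hlam
    rw [empty_union] at hS
    subst hS
    rw [card_empty, pow_zero, pow_zero, one_mul, one_mul]
    exact mixed_last σ hχ a r (fun l => ha l (mem_univ l)) hne β hlam hn
  | insert l L hlL ih =>
    intro S a r hr hd hU ha hne n β lam hn hβ hlam
    rw [card_insert_of_notMem hlL] at hr
    have hlS : l ∉ S := disjoint_left.mp hd (mem_insert_self l L)
    have hd' : Disjoint L (insert l S) :=
      disjoint_insert_right.mpr ⟨hlL, hd.mono_left (subset_insert l L)⟩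
    have hU' : L ∪ insert l S = univ := by rw [union_insert, ← insert_union]; exact hU
    have hne' : ∀ s, Mixed χ (Function.update a l s) (insert l S) := by
      intro s
      obtain ⟨k, hk, k', hk', hc, h⟩ := hne
      refine ⟨k, mem_insert_of_mem hk, k', mem_insert_of_mem hk', hc, ?_⟩
      rwa [Function.update_of_ne (ne_of_mem_of_not_mem hk hlS),
        Function.update_of_ne (ne_of_mem_of_not_mem hk' hlS)]
    have hlt : ∀ s t, s < t → r ≤ t → ∀ k ∈ insert l S, Function.update a l s k < t := by
      intro s t hst hrt k hk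
      rcases mem_insert.mp hk with rfl | hk
      · simpa using hst
      · rw [Function.update_of_ne (ne_of_mem_of_not_mem hk hlS)]
        exact (ha k hk).trans_le hrt
    have h₀ := ih (insert l S) (Function.update a l r) (r + 1) (by omega) hd' hU'
      (hlt r (r + 1) (Nat.lt_succ_self r) (Nat.le_succ r)) (hne' r) n β lam hn hβ hlam
    have hs := fun s : Fin r => ih (insert l S) (Function.update a l s) r (by omega) hd' hU'
      (hlt s r s.2 le_rfl) (hne' s) n β lam hn hβ hlam
    have hr2 : (r : ℝ) + r ≤ 2 * R := by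
      have : (r : ℝ) ≤ R := by exact_mod_cast (by omega : r ≤ R)
      linarith
    have hE : 0 ≤ (n : ℝ) ^ Fintype.card ι * err' n (Fintype.card ι) β lam := by
      have := Q_nonneg (n := n) β
      unfold err'; positivity
    rw [sum_congr rfl fun i hi => trm_step σ hσ (mem_inj.mp hi) hlL hlS ha, ← mul_sum,
      sum_sub_distrib, sum_comm, ← mul_sum, card_insert_of_notMem hlL, pow_succ', mul_assoc,
      abs_mul, abs_of_nonneg (by positivity : 0 ≤ β / √(n : ℝ))]
    refine mul_le_mul_of_nonneg_left ((abs_sub _ _).trans ?_) (by positivity)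
    rw [pow_succ' (2 * (R : ℝ)), mul_assoc (2 * (R : ℝ)), mul_left_comm]
    refine le_trans ?_ (mul_le_mul_of_nonneg_right hr2 (by positivity))
    rw [add_mul]
    refine add_le_add ?_ ?_
    · rw [sum_range fun s => ∑ i ∈ inj ι n, trm σ β i (Function.update a l s) L (insert l S) r]
      exact (abs_sum_le_sum_abs _ _).trans
        ((sum_le_sum fun s _ => hs s).trans (le_of_eq (by simp)))
    · rw [abs_mul, Nat.abs_cast]
      exact mul_le_mul_of_nonneg_left h₀ (Nat.cast_nonneg r)

/-- When every orbit is in one replica the term is one. -/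
lemma pr_pure {χ : ι → ℕ} (hχ : Label σ χ) (β : ℝ) (i : ι → Fin n) (r : ℕ)
    (g : Fin n × Fin n → ℝ) : pr β (asg σ i χ univ) r g = 1 := by
  refine prod_eq_one fun s _ => ?_
  have e : asg σ i χ univ s = fun _ => (1 : ℝ) := by
    funext x
    simp only [asg, edg, X_mk', prod_mul_distrib]
    rw [prod_equiv σ (t := univ.filter fun l => χ l = s) (g := fun l => spin (x (i l)))
      (f := fun l => spin (x (i (σ l)))) (fun l => by simp [hχ.1 l]) (fun l _ => rfl),
      ← prod_mul_distrib]
    simp [spin_mul_self]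
  rw [e, mu_one]

/-- The main expansion. -/
lemma main_le (hσ : NoShort σ) {χ : ι → ℕ} (hχ : Label σ χ) {r : ℕ} (hr : ∀ l, χ l < r)
    (R : ℕ) (L : Finset ι) : ∀ S : Finset ι, r + L.card ≤ R → Disjoint L S → L ∪ S = univ →
      (∀ s < r, ∃ k ∈ S, χ k = s) →
      ∀ (n : ℕ) (β lam : ℝ), 0 < n → 0 ≤ β → 0 < lam →
        |∑ i ∈ inj ι n, trm σ β i χ L S r - (β / √n) ^ L.card * (inj ι n).card| ≤
          (β / √n) ^ L.card * ((L.card * (2 * R : ℝ) ^ L.card) *
            ((n : ℝ) ^ Fintype.card ι * err' n (Fintype.card ι) β lam)) := by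
  induction L using Finset.induction_on with
  | empty =>
    intro S _ _ hS _ n β lam _ _ _
    rw [empty_union] at hS
    subst hS
    simp [trm, mon, pr_pure σ hχ]
  | insert l L hlL ih =>
    intro S hR hd hU hrep n β lam hn hβ hlam
    rw [card_insert_of_notMem hlL] at hR
    have hlS : l ∉ S := disjoint_left.mp hd (mem_insert_self l L)
    have hd' : Disjoint L (insert l S) :=
      disjoint_insert_right.mpr ⟨hlL, hd.mono_left (subset_insert l L)⟩
    have hU' : L ∪ insert l S = univ := by rw [union_insert, ← insert_union]; exact hU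
    have h := ih (insert l S) (by omega) hd' hU' (fun s hs =>
      let ⟨k, hk, e⟩ := hrep s hs; ⟨k, mem_insert_of_mem hk, e⟩) n β lam hn hβ hlam
    obtain ⟨k, hk, hkl⟩ := hrep (χ l) (hr l)
    have hmix : ∀ s, s ≠ χ l → Mixed χ (Function.update χ l s) (insert l S) := fun s hs =>
      ⟨l, mem_insert_self l S, k, mem_insert_of_mem hk, hkl.symm, by
        simp [ne_of_mem_of_not_mem hk hlS, hkl, hs]⟩
    have hlt : ∀ s t, s < t → r ≤ t → ∀ j ∈ insert l S, Function.update χ l s j < t := by
      intro s t hst hrt j _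
      by_cases hj : j = l
      · subst hj; simpa using hst
      · rw [Function.update_of_ne hj]; exact (hr j).trans_le hrt
    have h₀ := mixed_le σ hσ hχ R L (insert l S) (Function.update χ l r) (r + 1) (by omega) hd'
      hU' (hlt r (r + 1) (Nat.lt_succ_self r) (Nat.le_succ r)) (hmix r (hr l).ne') n β lam hn hβ
      hlam
    have hs := fun s : {s // s ∈ (range r).erase (χ l)} =>
      mixed_le σ hσ hχ R L (insert l S) (Function.update χ l s.1) r (by omega) hd' hU'
        (hlt s.1 r (mem_range.mp (mem_of_mem_erase s.2)) le_rfl) (hmix s.1 (ne_of_mem_erase s.2))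
        n β lam hn hβ hlam
    set E := (n : ℝ) ^ Fintype.card ι * err' n (Fintype.card ι) β lam with hEdef
    have hE : 0 ≤ E := by
      have := Q_nonneg (n := n) β
      rw [hEdef]; unfold err'; positivity
    set A := (2 * R : ℝ) ^ L.card with hA
    have hA0 : 0 ≤ A := by positivity
    have hR1 : (1 : ℝ) ≤ 2 * R := by
      have : (1 : ℝ) ≤ R := by exact_mod_cast (by omega : 1 ≤ R)
      linarith
    have hr2 : (r : ℝ) + r ≤ 2 * R := by
      have : (r : ℝ) ≤ R := by exact_mod_cast (by omega : r ≤ R)
      linarith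
    have hfin : L.card * A * E + (r * (A * E) + r * (A * E)) ≤
        ((L.card + 1 : ℕ) : ℝ) * (2 * R : ℝ) ^ (L.card + 1) * E := by
      have h1 := mul_le_mul_of_nonneg_right hR1 (mul_nonneg (mul_nonneg (Nat.cast_nonneg L.card) hA0) hE)
      have h2 := mul_le_mul_of_nonneg_right hr2 (mul_nonneg hA0 hE)
      push_cast
      rw [pow_succ', ← hA]
      linarith
    rw [sum_congr rfl fun i hi => trm_step σ hσ (mem_inj.mp hi) hlL hlS (fun j _ => hr j),
      ← mul_sum, card_insert_of_notMem hlL, pow_succ', mul_assoc, ← mul_sub, mul_assoc, abs_mul,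
      abs_of_nonneg (by positivity : 0 ≤ β / √(n : ℝ))]
    refine mul_le_mul_of_nonneg_left ?_ (by positivity)
    refine le_trans ?_ (mul_le_mul_of_nonneg_left hfin (by positivity))
    rw [sum_sub_distrib, sum_comm, ← mul_sum,
      ← add_sum_erase (range r) _ (mem_range.mpr (hr l)), Function.update_eq_self, add_sub_assoc,
      add_sub_right_comm, mul_add, mul_add]
    refine (abs_add_le _ _).trans (add_le_add h ((abs_sub _ _).trans (add_le_add ?_ ?_)))
    · rw [← sum_coe_sort ((range r).erase (χ l)), mul_left_comm]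
      refine (abs_sum_le_sum_abs _ _).trans ((sum_le_sum fun s _ => hs s).trans ?_)
      simp only [sum_const, card_univ, Fintype.card_coe, nsmul_eq_mul]
      refine mul_le_mul_of_nonneg_right ?_ (by positivity)
      exact_mod_cast ((card_erase_le).trans (le_of_eq (card_range r)))
    · rw [abs_mul, Nat.abs_cast, mul_left_comm]
      exact mul_le_mul_of_nonneg_left h₀ (Nat.cast_nonneg r)

end Vale.Agent.P150.Crit
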